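import Vale.Agent.P287T.Cy.Eq
import Vale.Agent.P287T.Df.Nm
import Mathlib.Analysis.Calculus.LineDeriv.Basic

/-!
# The symplectic form on first order deformations (P287 phase 2, block K3X)

The form `(ξ, η) ↦ tr (ξ η)` is alternating, nondegenerate modulo trivial deformations, and it
agrees for two differentiable families which are pointwise homotopy equivalent.
-/

open MvPolynomial Module Filter Topology

namespace Vale.Agent.P287T.Cy

open Vale.Agent.P287Z.O Vale.Agent.P287Z.O.L Vale.Agent.P287Z.T Vale.Agent.P287T.Df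

section rk

variable {T V V' : Type*} [AddCommGroup V] [Module ℂ V] [NormedAddCommGroup V'] [NormedSpace ℂ V']
  [FiniteDimensional ℂ V']

theorem card_le_of_tendsto {α ι : Type*} [Fintype ι] {l : Filter α} (R : α → Submodule ℂ V')
    {w : α → ι → V'} {w0 : ι → V'} (hw : Tendsto w l (𝓝 w0)) (li : LinearIndependent ℂ w0)
    (hR : ∀ a i, w a i ∈ R a) : ∀ᶠ a in l, Fintype.card ι ≤ finrank ℂ (R a) :=
  (hw.eventually (isOpen_setOfPred_linearIndependent.mem_nhds li)).mono fun a ha =>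
    (LinearIndependent.of_comp (R a).subtype (v := fun i => (⟨w a i, hR a i⟩ : R a))
      (show LinearIndependent ℂ (w a) from ha)).fintype_card_le_finrank

theorem exists_frame (F : V →ₗ[ℂ] V') : ∃ c : Fin (finrank ℂ (LinearMap.range F)) → V,
    LinearIndependent ℂ (fun i => F (c i)) ∧
      Submodule.span ℂ (Set.range fun i => F (c i)) ≤ LinearMap.range F := by
  let b := finBasis ℂ (LinearMap.range F)
  choose c hc using fun i => (b i).2
  refine ⟨c, ?_, Submodule.span_le.2 ?_⟩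
  · simp only [hc]
    exact b.linearIndependent.map' (LinearMap.range F).subtype (Submodule.ker_subtype _)
  · rintro _ ⟨i, rfl⟩
    exact ⟨c i, rfl⟩

/-- the rank is lower semicontinuous -/
theorem rank_lsc [TopologicalSpace T] (F : T → V →ₗ[ℂ] V') {z0 : T}
    (hc : ∀ c, ContinuousAt (fun z => F z c) z0) :
    ∀ᶠ z in 𝓝 z0, finrank ℂ (LinearMap.range (F z0)) ≤ finrank ℂ (LinearMap.range (F z)) := by
  obtain ⟨c, h1, -⟩ := exists_frame (F z0)
  have := card_le_of_tendsto (fun z => LinearMap.range (F z)) (w := fun z i => F z (c i))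
    (tendsto_pi_nhds.2 fun i => hc (c i)) h1 fun z i => ⟨c i, rfl⟩
  rwa [Fintype.card_fin] at this

/-- if the rank does not jump, elements of the kernel extend to first order -/
theorem first_order [NormedAddCommGroup T] [NormedSpace ℂ T] (F : T → V →ₗ[ℂ] V') {z0 : T}
    (hc : ∀ c, ContinuousAt (fun z => F z c) z0)
    (hk : ∀ᶠ z in 𝓝 z0, finrank ℂ (LinearMap.range (F z)) ≤ finrank ℂ (LinearMap.range (F z0)))
    {φ : V} (h0 : F z0 φ = 0) {L : T →L[ℂ] V'} (hL : HasFDerivAt (fun z => F z φ) L z0) (v : T) :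
    L v ∈ LinearMap.range (F z0) := by
  by_contra hn
  obtain ⟨c, h1, h2⟩ := exists_frame (F z0)
  have h3 : Tendsto (fun t : ℂ => z0 + t • v) (𝓝[≠] 0) (𝓝 z0) := by
    have : Continuous fun t : ℂ => z0 + t • v := by fun_prop
    simpa using (this.tendsto 0).mono_left (nhdsWithin_le_nhds (s := {0}ᶜ))
  have h4 := (hL.hasLineDerivAt v).tendsto_slope_zero
  have h5 := card_le_of_tendsto (l := 𝓝[≠] (0 : ℂ)) (fun t => LinearMap.range (F (z0 + t • v)))
    (w := fun t => Fin.cons (t⁻¹ • (F (z0 + t • v) φ - F z0 φ)) fun i => F (z0 + t • v) (c i))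
    (tendsto_pi_nhds.2 fun i => by
      refine Fin.cases ?_ (fun i => ?_) i
      · exact h4
      · exact (hc (c i)).tendsto.comp h3)
    (h1.finCons fun a => hn (h2 a)) fun t i => by
      refine Fin.cases ?_ (fun i => ⟨c i, rfl⟩) i
      exact ⟨t⁻¹ • φ, by rw [map_smul, h0, sub_zero]; rfl⟩
  obtain ⟨t, a, b⟩ := (h5.and (h3.eventually hk)).exists
  rw [Fintype.card_fin] at a
  lia

end rk

variable {ι κ : Type} [Fintype ι] [Fintype κ] {W : S6} {p : ι → ℤ} {q : κ → ℤ}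

/-- the differential `g ↦ e g + s g d` -/
noncomputable def dlm (s : ℂ) (d : MM p p 3) (e : MM q q 3) {j j' : ℤ} (h : 3 + j = j') :
    MM p q j →ₗ[ℂ] MM p q j' :=
  (mulL p q q h e).toLinearMap + s • ((mulL p p q ((add_comm _ _).trans h)).flip d).toLinearMap

theorem dlm_val (s : ℂ) (d : MM p p 3) (e : MM q q 3) {j j' : ℤ} (h : 3 + j = j') (g : MM p q j) :
    (dlm s d e h g).1 = e.1 * g.1 + s • (g.1 * d.1) := rfl

theorem dlm_hasFDerivAt {T : Type*} [NormedAddCommGroup T] [NormedSpace ℂ T] (s : ℂ)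
    {u : T → MM p p 3} {u' : T → MM q q 3} {t0 : T} {L : T →L[ℂ] MM p p 3}
    {L' : T →L[ℂ] MM q q 3} (hu : HasFDerivAt u L t0) (hu' : HasFDerivAt u' L' t0) {j j' : ℤ}
    (h : 3 + j = j') (g : MM p q j) :
    HasFDerivAt (fun t => dlm s (u t) (u' t) h g) (((mulL p q q h).flip g).comp L' +
      s • (mulL p p q ((add_comm _ _).trans h) g).comp L) t0 :=
  ((((mulL p q q h).flip g).hasFDerivAt.comp t0 hu').add
    (((mulL p p q ((add_comm _ _).trans h) g).hasFDerivAt.comp t0 hu).const_smul s))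

theorem finrank_dlm_neg (d : MM p p 3) (e : MM q q 3) {j j' : ℤ} (h : 3 + j = j') :
    finrank ℂ (LinearMap.range (dlm (-1) d e h)) + finrank ℂ (ZZ p d.1 q e.1 j) =
      finrank ℂ (MM p q j) := by
  rw [← LinearMap.finrank_range_add_finrank_ker (dlm (-1) d e h),
    ← (Submodule.comapSubtypeEquivOfLe (p := ZZ p d.1 q e.1 j) (q := MM p q j)
      fun _ a => a.1).finrank_eq]
  refine congrArg (fun S : Submodule ℂ (MM p q j) => _ + finrank ℂ S) (Submodule.ext fun g => ?_)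
  rw [LinearMap.mem_ker, Subtype.ext_iff, dlm_val, neg_one_smul, ← sub_eq_add_neg]
  exact ⟨fun a => sub_eq_zero.2 a.2, fun a => ⟨g.2, sub_eq_zero.1 a⟩⟩

theorem finrank_dlm_pos (d : MM p p 3) (e : MM q q 3) {j : ℤ} (h : 3 + (j - 3) = j) :
    finrank ℂ (LinearMap.range (dlm 1 d e h)) = finrank ℂ (BB p d.1 q e.1 j) := by
  rw [← Submodule.finrank_map_subtype_eq]
  refine congrArg (fun S : Submodule ℂ (Matrix κ ι S6) => finrank ℂ S) (Submodule.ext fun g => ?_)
  constructor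
  · rintro ⟨_, ⟨k, rfl⟩, rfl⟩
    exact ⟨k.1, k.2, by rw [Submodule.subtype_apply, dlm_val, one_smul]⟩
  · rintro ⟨k, hk, rfl⟩
    exact ⟨_, ⟨⟨k, hk⟩, rfl⟩, by rw [Submodule.subtype_apply, dlm_val, one_smul]⟩

variable [DecidableEq ι] [DecidableEq κ]

section fam

variable {T : Type*} [NormedAddCommGroup T] [NormedSpace ℂ T] {u : T → MM p p 3}
  {u' : T → MM q q 3} {t0 : T} {L : T →L[ℂ] MM p p 3} {L' : T →L[ℂ] MM q q 3}

/-- the derivative of a family of factorizations of `W` anticommutes with the differential -/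
theorem deriv_anti (hu : HasFDerivAt u L t0) (h : ∀ᶠ t in 𝓝 t0, IsMF W p (u t).1) (v : T) :
    (u t0).1 * (L v).1 + (L v).1 * (u t0).1 = 0 := by
  have h1 := (mulL p p p (show (3 : ℤ) + 3 = 6 from rfl)).hasFDerivAt_of_bilinear hu hu
  have h2 : (fun t => mulL p p p (show (3 : ℤ) + 3 = 6 from rfl) (u t) (u t)) =ᶠ[𝓝 t0]
      fun _ => mulL p p p (show (3 : ℤ) + 3 = 6 from rfl) (u t0) (u t0) :=
    h.mono fun t ht => Subtype.ext (ht.sq.trans h.self_of_nhds.sq.symm)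
  have h3 := h1.unique ((hasFDerivAt_const _ t0).congr_of_eventuallyEq h2)
  exact congrArg Subtype.val (ContinuousLinearMap.ext_iff.1 h3 v)

/-- closed maps extend to first order if the dimension of the space of maps does not drop -/
theorem deriv_ext (hu : HasFDerivAt u L t0) (hu' : HasFDerivAt u' L' t0) {j : ℤ}
    (h : ∀ᶠ t in 𝓝 t0, (∃ W, IsMF W p (u t).1 ∧ IsMF W q (u' t).1) ∧
      finrank ℂ (HH p (u t0).1 q (u' t0).1 j) ≤ finrank ℂ (HH p (u t).1 q (u' t).1 j))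
    {f : Matrix κ ι S6} (hf : f ∈ ZZ p (u t0).1 q (u' t0).1 j) (v : T) :
    ∃ k ∈ MM p q j, (L' v).1 * f - f * (L v).1 = (u' t0).1 * k - k * (u t0).1 := by
  have h1 := rank_lsc (fun t => dlm 1 (u t) (u' t) (add_sub_cancel 3 j))
    fun c => (dlm_hasFDerivAt 1 hu hu' _ c).continuousAt
  have h2 : ∀ t, (∃ W, IsMF W p (u t).1 ∧ IsMF W q (u' t).1) →
      finrank ℂ (LinearMap.range (dlm (-1) (u t) (u' t) (rfl : 3 + j = _))) +
        (finrank ℂ (HH p (u t).1 q (u' t).1 j) +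
          finrank ℂ (LinearMap.range (dlm 1 (u t) (u' t) (add_sub_cancel 3 j)))) =
        finrank ℂ (MM p q j) := by
    rintro t ⟨W, a, b⟩
    have := finite_ZZ p (u t).1 q (u' t).1 j
    rw [finrank_dlm_pos, finrank_hq (bb_le_zz a b j), finrank_dlm_neg]
  obtain ⟨k, hk⟩ := first_order (fun t => dlm (-1) (u t) (u' t) (rfl : 3 + j = _))
    (fun c => (dlm_hasFDerivAt (-1) hu hu' _ c).continuousAt)
    ((h.and h1).mono fun t a => by
      have b1 := h2 t a.1.1
      have b2 := h2 t0 h.self_of_nhds.1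
      have b3 := a.1.2
      have b4 := a.2
      lia)
    (φ := ⟨f, hf.1⟩) (Subtype.ext (by
      rw [dlm_val, neg_one_smul]
      exact add_neg_eq_zero.2 hf.2))
    (dlm_hasFDerivAt (-1) hu hu' _ _) v
  refine ⟨k.1, k.2, ?_⟩
  have h3 : (u' t0).1 * k.1 + (-1 : ℂ) • (k.1 * (u t0).1) =
      (L' v).1 * f + (-1 : ℂ) • (f * (L v).1) := congrArg Subtype.val hk
  rw [neg_one_smul, neg_one_smul, ← sub_eq_add_neg, ← sub_eq_add_neg] at h3
  exact h3.symm

end fam

variable {d ξ η : Matrix ι ι S6}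

omit [DecidableEq ι] in
theorem mul_mem_ZZ6 (hξ : ξ ∈ MM p p 3) (hη : η ∈ MM p p 3) (a : d * ξ + ξ * d = 0)
    (b : d * η + η * d = 0) : ξ * η ∈ ZZ p d p d 6 :=
  ⟨MM_mul (q := p) hξ hη rfl, by
    rw [← mul_assoc, eq_neg_of_add_eq_zero_left a, neg_mul, mul_assoc, eq_neg_of_add_eq_zero_left b,
      mul_neg, neg_neg, mul_assoc]⟩

theorem mul_eps_mem_ZZ (hd : d ∈ MM p p 3) (hξ : ξ ∈ MM p p 3) (a : d * ξ + ξ * d = 0) :
    ξ * eps p ∈ ZZ p d p d 3 :=
  ⟨MM_mul (q := p) hξ (eps_mem p) rfl, by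
    rw [← mul_assoc, eq_neg_of_add_eq_zero_left a, neg_mul, mul_assoc, d_mul_eps hd, mul_neg,
      neg_neg, mul_assoc]⟩

theorem mul_eps_mul (hη : η ∈ MM p p 3) (ξ : Matrix ι ι S6) :
    ξ * eps p * (η * eps p) = -(ξ * η) := by
  rw [d_mul_eps hη, mul_neg, mul_assoc, ← mul_assoc (eps p), eps_mul_eps, one_mul]

variable (J : Jd W)

/-- the form is antisymmetric -/
theorem Jd.om_swap (hX : IsMF W p d) (hξ : ξ ∈ MM p p 3) (hη : η ∈ MM p p 3)
    (a : d * ξ + ξ * d = 0) (b : d * η + η * d = 0) : J.tr p d (ξ * η) = -J.tr p d (η * ξ) := by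
  have h := J.tr_comm hX hX (mul_eps_mem_ZZ hX.deg hη b) (mul_eps_mem_ZZ hX.deg hξ a).2
  rwa [mul_eps_mul hη, mul_eps_mul hξ, map_neg, map_neg, sg_three, neg_one_mul, neg_inj] at h

theorem Jd.om_self (hX : IsMF W p d) (hξ : ξ ∈ MM p p 3) (a : d * ξ + ξ * d = 0) :
    J.tr p d (ξ * ξ) = 0 :=
  CharZero.eq_neg_self_iff.1 (J.om_swap hX hξ hξ a a)

/-- trivial deformations are in the kernel of the form -/
theorem Jd.om_trv (hX : IsMF W p d) (h : Matrix ι ι S6) (b : d * η + η * d = 0) :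
    J.tr p d ((h * d - d * h) * η) = 0 := by
  have h1 : (h * d - d * h) * η = d * -(h * η) + -(h * η) * d := by
    rw [sub_mul, mul_assoc, eq_neg_of_add_eq_zero_left b]
    noncomm_ring
  rw [h1]
  exact J.tr_bd hX _

/-- the form is nondegenerate on a family whose Kodaira-Spencer map is onto -/
theorem Jd.om_nondeg (hX : IsMF W p d) {E : Type*} [AddCommGroup E] [Module ℂ E]
    [Module.Finite ℂ E] (K : E →ₗ[ℂ] MM p p 3) (ha : ∀ v, d * (K v).1 + (K v).1 * d = 0)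
    (N : Submodule ℂ E) (hN : ∀ v, (∃ h ∈ MM p p 0, (K v).1 = h * d - d * h) → v ∈ N)
    (hd : finrank ℂ (HH p d p d 3) + finrank ℂ N ≤ finrank ℂ E) {v : E}
    (hv : ∀ w, J.tr p d ((K w).1 * (K v).1) = 0) : v ∈ N := by
  have := finite_HH p d p d 3
  let K' : E →ₗ[ℂ] ZZ p d p d 3 :=
    { toFun := fun v => ⟨(K v).1 * eps p, mul_eps_mem_ZZ hX.deg (K v).2 (ha v)⟩
      map_add' := fun _ _ => Subtype.ext (by simp only [map_add, Submodule.coe_add, add_mul])
      map_smul' := fun _ _ => Subtype.ext (by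
        simp only [map_smul, Submodule.coe_smul, smul_mul_assoc, RingHom.id_apply]) }
  have h1 : ∀ v, (K v).1 * eps p ∈ BB p d p d 3 → v ∈ N := by
    rintro v ⟨k, hk, e⟩
    refine hN v ⟨-(k * eps p), Submodule.neg_mem _ (MM_mul (q := p) (b := 3 - 3) hk (eps_mem p)
      (by norm_num)), ?_⟩
    rw [← mul_one (K v).1, ← eps_mul_eps p, ← mul_assoc, e, add_mul, mul_assoc k, d_mul_eps hX.deg]
    noncomm_ring
  let K'' : E →ₗ[ℂ] HH p d p d 3 := ((BB p d p d 3).submoduleOf (ZZ p d p d 3)).mkQ ∘ₗ K'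
  have h2 : LinearMap.ker K'' ≤ N := fun v a =>
    h1 v ((Submodule.Quotient.mk_eq_zero ((BB p d p d 3).submoduleOf (ZZ p d p d 3))).1
      (LinearMap.mem_ker.1 a))
  have h3 : LinearMap.range K'' = ⊤ := by
    refine Submodule.eq_top_of_finrank_eq (le_antisymm (Submodule.finrank_le _) ?_)
    have a1 := LinearMap.finrank_range_add_finrank_ker K''
    have a2 := Submodule.finrank_mono h2
    lia
  refine h1 v (J.nondeg hX hX (j' := 3) rfl (K' v).2 fun g hg => ?_)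
  obtain ⟨w, hw⟩ := LinearMap.range_eq_top.1 h3 (Submodule.Quotient.mk ⟨g, hg⟩)
  have h4 : (K w).1 * eps p - g ∈ BB p d p d 3 :=
    (Submodule.Quotient.eq ((BB p d p d 3).submoduleOf (ZZ p d p d 3))).1 hw
  have h5 := J.tr_BB_left hX h4 (mul_eps_mem_ZZ hX.deg (K v).2 (ha v)).2
  rw [sub_mul, map_sub, sub_eq_zero, mul_eps_mul (K v).2, map_neg, hv, neg_zero] at h5
  exact h5.symm

/-- **the form does not depend on the family** -/
theorem Jd.om_compat {T : Type*} [NormedAddCommGroup T] [NormedSpace ℂ T] {u : T → MM p p 3}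
    {u' : T → MM q q 3} {t0 : T} {L : T →L[ℂ] MM p p 3} {L' : T →L[ℂ] MM q q 3}
    (hu : HasFDerivAt u L t0) (hu' : HasFDerivAt u' L' t0)
    (h : ∀ᶠ t in 𝓝 t0, IsMF W p (u t).1 ∧ IsMF W q (u' t).1 ∧ HE p (u t).1 q (u' t).1 ∧
      finrank ℂ (HH p (u t).1 p (u t).1 0) = 1) (v w : T) :
    J.tr q (u' t0).1 ((L' v).1 * (L' w).1) = J.tr p (u t0).1 ((L v).1 * (L w).1) := by
  obtain ⟨hX, hY, ⟨f, hf, g, hg, h1, h2⟩, -⟩ := h.self_of_nhds
  have a := deriv_anti hu (h.mono fun _ a => a.1)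
  have b := deriv_anti hu' (h.mono fun _ a => a.2.1)
  have c := deriv_ext hu hu' (j := 0) (h.mono fun t a => ⟨⟨W, a.1, a.2.1⟩, by
    rw [← a.2.2.1.hh_right, a.2.2.2, ← h.self_of_nhds.2.2.1.hh_right, h.self_of_nhds.2.2.2]⟩) hf
  obtain ⟨k, hk, e1⟩ := c v
  obtain ⟨k', hk', e2⟩ := c w
  refine J.tr_he hX hY hf hg h1 h2 (mul_mem_ZZ6 (L v).2 (L w).2 (a v) (a w))
    (mul_mem_ZZ6 (L' v).2 (L' w).2 (b v) (b w)) ⟨k * (L w).1 - (L' v).1 * k',
      Submodule.sub_mem (MM p q (6 - 3)) (MM_mul hk (L w).2 (by norm_num))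
        (MM_mul (L' v).2 hk' (by norm_num)), ?_⟩
  have e3 : (L' v).1 * (L' w).1 * f - f * ((L v).1 * (L w).1) =
      (L' v).1 * ((L' w).1 * f - f * (L w).1) + ((L' v).1 * f - f * (L v).1) * (L w).1 := by
    simp only [Matrix.mul_sub, Matrix.sub_mul, Matrix.mul_assoc]
    abel
  rw [e3, e1, e2, Matrix.mul_sub, Matrix.sub_mul, ← Matrix.mul_assoc (L' v).1 (u' t0).1,
    eq_neg_of_add_eq_zero_right (b v), Matrix.mul_assoc k, eq_neg_of_add_eq_zero_left (a w)]
  simp only [Matrix.mul_sub, Matrix.sub_mul, Matrix.mul_assoc, Matrix.mul_neg, Matrix.neg_mul]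
  abel

end Vale.Agent.P287T.Cy
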