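import Vale.Agent.P287T.Cy.Main

/-!
# Homotopy equivalences of raw matrix factorizations (P287 phase 2, block CY2)
-/

open MvPolynomial Module

namespace Vale.Agent.P287T.Cy

open Vale.Agent.P287Z.O Vale.Agent.P287Z.O.L Vale.Agent.P287Z.T

variable {ι κ μ : Type} [Fintype ι] [Fintype κ] [Fintype μ] {W : S6}
  {p : ι → ℤ} {d : Matrix ι ι S6} {q : κ → ℤ} {e : Matrix κ κ S6} {r : μ → ℤ} {c : Matrix μ μ S6}

theorem zz_mul {a b j : ℤ} {g : Matrix μ κ S6} {f : Matrix κ ι S6} (hg : g ∈ ZZ q e r c b)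
    (hf : f ∈ ZZ p d q e a) (h : a + b = j) : g * f ∈ ZZ p d r c j :=
  ⟨MM_mul (q := q) hg.1 hf.1 h, by rw [← Matrix.mul_assoc, hg.2, Matrix.mul_assoc, hf.2,
    Matrix.mul_assoc]⟩

theorem zz_mul_bb {a b j : ℤ} {g : Matrix μ κ S6} {f : Matrix κ ι S6} (hg : g ∈ ZZ q e r c b)
    (hf : f ∈ BB p d q e a) (h : a + b = j) : g * f ∈ BB p d r c j := by
  obtain ⟨k, hk, rfl⟩ := hf
  refine ⟨g * k, MM_mul (q := q) (a := a - 3) hg.1 hk (by lia), ?_⟩
  rw [Matrix.mul_add, ← Matrix.mul_assoc, ← hg.2, Matrix.mul_assoc, Matrix.mul_assoc]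

theorem bb_mul_zz {a b j : ℤ} {g : Matrix μ κ S6} {f : Matrix κ ι S6} (hg : g ∈ BB q e r c b)
    (hf : f ∈ ZZ p d q e a) (h : a + b = j) : g * f ∈ BB p d r c j := by
  obtain ⟨k, hk, rfl⟩ := hg
  refine ⟨k * f, MM_mul (q := q) (b := b - 3) hk hf.1 (by lia), ?_⟩
  rw [Matrix.add_mul, Matrix.mul_assoc k, hf.2, Matrix.mul_assoc, Matrix.mul_assoc]

theorem zz_one [DecidableEq ι] (p : ι → ℤ) (d : Matrix ι ι S6) :
    (1 : Matrix ι ι S6) ∈ ZZ p d p d 0 := ⟨MM_one p, by rw [mul_one, one_mul]⟩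

theorem bb_le_zz [DecidableEq ι] [DecidableEq κ] (hX : IsMF W p d) (hY : IsMF W q e) (j : ℤ) :
    BB p d q e j ≤ ZZ p d q e j := by
  rintro _ ⟨k, hk, rfl⟩
  refine ⟨Submodule.add_mem (MM p q j) (MM_mul (a := j - 3) hY.deg hk (by lia))
    (MM_mul (b := j - 3) hk hX.deg (by lia)), ?_⟩
  rw [Matrix.mul_add, Matrix.add_mul, ← Matrix.mul_assoc e e, hY.sq, Matrix.mul_assoc k, hX.sq,
    Matrix.smul_mul, Matrix.mul_smul, Matrix.one_mul, Matrix.mul_one, add_comm, Matrix.mul_assoc]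

variable [DecidableEq ι] [DecidableEq κ] [DecidableEq μ]

/-- `(p, d)` and `(q, e)` are homotopy equivalent -/
def HE (p : ι → ℤ) (d : Matrix ι ι S6) (q : κ → ℤ) (e : Matrix κ κ S6) : Prop :=
  ∃ f ∈ ZZ p d q e 0, ∃ g ∈ ZZ q e p d 0,
    g * f - 1 ∈ BB p d p d 0 ∧ f * g - 1 ∈ BB q e q e 0

theorem HE.refl (p : ι → ℤ) (d : Matrix ι ι S6) : HE p d p d :=
  ⟨1, zz_one p d, 1, zz_one p d, by rw [mul_one, sub_self]; exact Submodule.zero_mem _,
    by rw [mul_one, sub_self]; exact Submodule.zero_mem _⟩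

theorem HE.symm (h : HE p d q e) : HE q e p d :=
  let ⟨f, hf, g, hg, h1, h2⟩ := h
  ⟨g, hg, f, hf, h2, h1⟩

theorem HE.trans (h : HE p d q e) (h' : HE q e r c) : HE p d r c := by
  obtain ⟨f, hf, g, hg, h1, h2⟩ := h
  obtain ⟨f', hf', g', hg', h1', h2'⟩ := h'
  refine ⟨f' * f, zz_mul hf' hf (add_zero _), g * g', zz_mul hg hg' (add_zero _), ?_, ?_⟩
  · have : g * g' * (f' * f) - 1 = g * ((g' * f' - 1) * f) + (g * f - 1) := by
      simp only [Matrix.mul_sub, Matrix.sub_mul, Matrix.one_mul, Matrix.mul_assoc]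
      abel
    rw [this]
    exact Submodule.add_mem _ (zz_mul_bb hg (bb_mul_zz h1' hf (add_zero _)) (add_zero _)) h1
  · have : f' * f * (g * g') - 1 = f' * ((f * g - 1) * g') + (f' * g' - 1) := by
      simp only [Matrix.mul_sub, Matrix.sub_mul, Matrix.one_mul, Matrix.mul_assoc]
      abel
    rw [this]
    exact Submodule.add_mem _ (zz_mul_bb hf' (bb_mul_zz h2 hg' (add_zero _)) (add_zero _)) h2'

/-- conjugate factorizations are equivalent -/
theorem HE.of_conj {g : Matrix κ ι S6} {g' : Matrix ι κ S6} (hg : g ∈ MM p q 0)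
    (hg' : g' ∈ MM q p 0) (h1 : g * g' = 1) (h2 : g' * g = 1) (h : g * d = e * g) :
    HE p d q e := by
  refine ⟨g, ⟨hg, h.symm⟩, g', ⟨hg', ?_⟩, by rw [h2, sub_self]; exact Submodule.zero_mem _,
    by rw [h1, sub_self]; exact Submodule.zero_mem _⟩
  rw [← Matrix.one_mul (d * g'), ← h2, Matrix.mul_assoc, ← Matrix.mul_assoc g, h, Matrix.mul_assoc,
    h1, Matrix.mul_one]

omit [DecidableEq ι] in
theorem HE.hh_right (h : HE q e r c) (p : ι → ℤ) (d : Matrix ι ι S6) (j : ℤ) :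
    finrank ℂ (HH p d q e j) = finrank ℂ (HH p d r c j) := by
  obtain ⟨f, hf, g, hg, h1, h2⟩ := h
  let α : Matrix κ ι S6 →ₗ[ℂ] Matrix μ ι S6 :=
    { toFun := fun z => f * z
      map_add' := fun _ _ => Matrix.mul_add _ _ _
      map_smul' := fun _ _ => Matrix.mul_smul _ _ _ }
  obtain ⟨E⟩ := hq_equiv (Z := ZZ p d q e j) (B := BB p d q e j) (Z' := ZZ p d r c j)
    (B' := BB p d r c j) α (fun z hz => zz_mul hf hz (add_zero _))
    (fun z hz => ⟨fun a => by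
      have h3 : z = g * (f * z) - (g * f - 1) * z := by
        rw [Matrix.sub_mul, Matrix.one_mul, Matrix.mul_assoc, sub_sub_cancel]
      rw [h3]
      exact Submodule.sub_mem _ (zz_mul_bb hg a (add_zero _)) (bb_mul_zz h1 hz (add_zero _)),
      fun a => zz_mul_bb hf a (add_zero _)⟩)
    (fun z hz => ⟨g * z, zz_mul hg hz (add_zero _), by
      have h3 : z - f * (g * z) = -((f * g - 1) * z) := by
        rw [Matrix.sub_mul, Matrix.one_mul, Matrix.mul_assoc, neg_sub]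
      exact h3 ▸ Submodule.neg_mem _ (bb_mul_zz h2 hz (add_zero _))⟩)
  exact E.finrank_eq

omit [DecidableEq μ] in
theorem HE.hh_left (h : HE p d q e) (r : μ → ℤ) (c : Matrix μ μ S6) (j : ℤ) :
    finrank ℂ (HH q e r c j) = finrank ℂ (HH p d r c j) := by
  obtain ⟨f, hf, g, hg, h1, h2⟩ := h
  let α : Matrix μ κ S6 →ₗ[ℂ] Matrix μ ι S6 :=
    { toFun := fun z => z * f
      map_add' := fun _ _ => Matrix.add_mul _ _ _
      map_smul' := fun _ _ => Matrix.smul_mul _ _ _ }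
  obtain ⟨E⟩ := hq_equiv (Z := ZZ q e r c j) (B := BB q e r c j) (Z' := ZZ p d r c j)
    (B' := BB p d r c j) α (fun z hz => zz_mul hz hf (zero_add _))
    (fun z hz => ⟨fun a => by
      have h3 : z = z * f * g - z * (f * g - 1) := by
        rw [Matrix.mul_sub, Matrix.mul_one, Matrix.mul_assoc, sub_sub_cancel]
      rw [h3]
      exact Submodule.sub_mem _ (bb_mul_zz a hg (zero_add _)) (zz_mul_bb hz h2 (zero_add _)),
      fun a => bb_mul_zz a hf (zero_add _)⟩)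
    (fun z hz => ⟨z * g, zz_mul hz hg (zero_add _), by
      have h3 : z - z * g * f = -(z * (g * f - 1)) := by
        rw [Matrix.mul_sub, Matrix.mul_one, Matrix.mul_assoc, neg_sub]
      exact h3 ▸ Submodule.neg_mem _ (zz_mul_bb hz h1 (zero_add _))⟩)
  exact E.finrank_eq

/-- the trace is invariant under homotopy equivalences -/
theorem Jd.tr_he (J : Jd W) (hX : IsMF W p d) (hY : IsMF W q e) {f : Matrix κ ι S6}
    {g : Matrix ι κ S6} (hf : f ∈ ZZ p d q e 0) (hg : g ∈ ZZ q e p d 0)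
    (h1 : g * f - 1 ∈ BB p d p d 0) (h2 : f * g - 1 ∈ BB q e q e 0) {φ : Matrix ι ι S6}
    {ψ : Matrix κ κ S6} (hφ : φ ∈ ZZ p d p d 6) (hψ : ψ ∈ ZZ q e q e 6)
    (h : ψ * f - f * φ ∈ BB p d q e 6) : J.tr q e ψ = J.tr p d φ := by
  have a1 := J.tr_BB_right hY h2 hψ.2
  have a2 := J.tr_BB_left hX h1 hφ.2
  have a3 := J.tr_BB_right hX h hg.2
  have a4 := J.tr_comm hX hY hf (g := g * ψ) (zz_mul hg hψ rfl).2
  have a5 := J.tr_comm hY hY hψ (g := f * g) (zz_mul hf hg rfl).2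
  rw [show sg 6 = 1 from sg_two_mul 3, one_mul] at a5
  rw [show sg 0 = 1 from sg_two_mul 0, one_mul] at a4
  rw [Matrix.mul_sub, Matrix.mul_one, map_sub, sub_eq_zero] at a1
  rw [Matrix.sub_mul, Matrix.one_mul, map_sub, sub_eq_zero] at a2
  rw [Matrix.mul_sub, map_sub, sub_eq_zero] at a3
  rw [← a1, ← a5, ← a2, Matrix.mul_assoc f, ← a4, Matrix.mul_assoc, a3, Matrix.mul_assoc]

end Vale.Agent.P287T.Cy
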