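import Vale.Agent.P287T.Cy.Alg

/-!
# Jacobian data, the homotopies for `xᵢ ^ N` and their products (P287 phase 2, block CY2)
-/

open MvPolynomial

namespace Vale.Agent.P287T.Cy

open Vale.Agent.P287Z.O Vale.Agent.P287Z.O.L Vale.Agent.P287Z.T

variable {ι κ μ : Type} {W : S6}

/-- homogeneous cofactors exhibiting `xᵢ ^ N` in the Jacobian ideal of the cubic `W` -/
structure Jd (W : S6) where
  N : ℕ
  pos : 1 ≤ N
  a : Fin 6 → Fin 6 → S6
  deg : ∀ i j, V.Hg (2 * N - 4) (a i j)
  eq : ∀ i, X i ^ N = ∑ j, a i j * pderiv j W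

theorem hg_X_pow (i : Fin 6) (r : ℕ) : V.Hg (2 * r) (X i ^ r : S6) := by
  rw [X_pow_eq_monomial]
  exact hga_monomial _ (by rw [Finsupp.degree_single])

theorem exists_pow_mem (hs : Sm W) (i : Fin 6) :
    ∃ N : ℕ, (X i : S6) ^ N ∈ Ideal.span (Set.range fun j => pderiv j W) := by
  set I := Ideal.span (Set.range fun j => pderiv j W) with hI
  have h1 : (X i : S6) ∈ vanishingIdeal ℂ (zeroLocus ℂ I) := by
    intro x hx
    have h2 : x = 0 := by
      refine hs x fun j => ?_
      have h3 := hx (pderiv j W) (Ideal.subset_span ⟨j, rfl⟩)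
      rwa [aeval_eq_eval] at h3
    rw [h2, aeval_X]
    rfl
  rw [vanishingIdeal_zeroLocus_eq_radical] at h1
  exact h1

theorem nonempty_jd (hW : V.Hg 6 W) (hs : Sm W) : Nonempty (Jd W) := by
  choose N hN using fun i => exists_pow_mem hs i
  have h1 : ∀ i, ∃ a : Fin 6 → S6, ∑ j, a j * pderiv j W = X i ^ ((∑ i, N i) + 1) := fun i =>
    Ideal.mem_span_range_iff_exists_fun.1 (Ideal.pow_mem_of_pow_mem _ (hN i)
      ((Finset.single_le_sum (fun _ _ => Nat.zero_le _) (Finset.mem_univ i)).trans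
        (Nat.le_add_right _ _)))
  choose a ha using h1
  refine ⟨⟨(∑ i, N i) + 1, Nat.le_add_left _ _, fun i j => hpart _ (a i j),
    fun i j => hga_hpart _ _, fun i => ?_⟩⟩
  rw [← hpart_eq_self (hg_X_pow i _), ← ha, hpart_sum]
  refine Finset.sum_congr rfl fun j _ => ?_
  have h2 : V.Hg 4 (pderiv j W) := IsWeightedHomogeneous.pderiv hW (by norm_num)
  rw [mul_comm (a i j), hpart_mul h2, mul_comm (pderiv j W)]

/-- raising the exponent -/
noncomputable def Jd.up (J : Jd W) (r : ℕ) : Jd W where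
  N := J.N + r
  pos := J.pos.trans (Nat.le_add_right _ _)
  a i j := X i ^ r * J.a i j
  deg i j := hga_mul' (hg_X_pow i r) (J.deg i j) (by push_cast; ring)
  eq i := by
    rw [pow_add, J.eq i, mul_comm, Finset.mul_sum]
    exact Finset.sum_congr rfl fun j _ => (mul_assoc _ _ _).symm

/-- the derivation `∑ⱼ aᵢⱼ ∂ⱼ` on matrices -/
noncomputable def Jd.der (J : Jd W) (i : Fin 6) (f : Matrix κ ι S6) : Matrix κ ι S6 :=
  ∑ j, J.a i j • f.map (pderiv j)

theorem map_pderiv_mul [Fintype κ] (j : Fin 6) (g : Matrix μ κ S6) (f : Matrix κ ι S6) :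
    (g * f).map (pderiv j) = g.map (pderiv j) * f + g * f.map (pderiv j) := by
  ext i l : 1
  rw [Matrix.map_apply, Matrix.add_apply, Matrix.mul_apply, Matrix.mul_apply, Matrix.mul_apply,
    map_sum, ← Finset.sum_add_distrib]
  refine Finset.sum_congr rfl fun k _ => ?_
  rw [Derivation.leibniz, Matrix.map_apply, Matrix.map_apply, smul_eq_mul, smul_eq_mul]
  ring

variable (J : Jd W)

theorem Jd.der_mul [Fintype κ] (i : Fin 6) (g : Matrix μ κ S6) (f : Matrix κ ι S6) :
    J.der i (g * f) = J.der i g * f + g * J.der i f := by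
  rw [Jd.der, Jd.der, Jd.der, Matrix.sum_mul, Matrix.mul_sum, ← Finset.sum_add_distrib]
  refine Finset.sum_congr rfl fun j _ => ?_
  rw [map_pderiv_mul, smul_add, Matrix.smul_mul, Matrix.mul_smul]

theorem Jd.der_W [DecidableEq ι] (i : Fin 6) :
    J.der i (W • (1 : Matrix ι ι S6)) = (X i ^ J.N : S6) • (1 : Matrix ι ι S6) := by
  rw [Jd.der, J.eq i, Finset.sum_smul]
  refine Finset.sum_congr rfl fun j _ => ?_
  ext a b : 1
  rw [Matrix.smul_apply, Matrix.map_apply, Matrix.smul_apply, Matrix.smul_apply, Matrix.one_apply]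
  split_ifs <;> simp

theorem Jd.der_mem {p : ι → ℤ} {q : κ → ℤ} {t : ℤ} {f : Matrix κ ι S6} (hf : f ∈ MM p q t)
    (i : Fin 6) : J.der i f ∈ MM p q (t + 2 * J.N - 6) :=
  Submodule.sum_mem _ fun j _ => MM_smul (J.deg i j) (MM_pderiv hf j) (by lia)

theorem Jd.der_up (r : ℕ) (i : Fin 6) (f : Matrix κ ι S6) :
    (J.up r).der i f = (X i ^ r : S6) • J.der i f := by
  rw [Jd.der, Jd.der, Finset.smul_sum]
  exact Finset.sum_congr rfl fun j _ => (smul_smul _ _ _).symm

section

variable [Fintype ι] [DecidableEq ι]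

/-- the product of the homotopies along a list -/
noncomputable def Jd.H (d : Matrix ι ι S6) : List (Fin 6) → Matrix ι ι S6
  | [] => 1
  | i :: L => J.der i d * Jd.H d L

theorem Jd.H_mem {p : ι → ℤ} {d : Matrix ι ι S6} (hd : d ∈ MM p p 3) (L : List (Fin 6)) :
    J.H d L ∈ MM p p (L.length * (2 * J.N - 3)) := by
  induction L with
  | nil =>
    rw [List.length_nil, Nat.cast_zero, zero_mul]
    exact MM_one p
  | cons i L ih =>
    refine MM_mul (J.der_mem hd i) ih ?_
    rw [List.length_cons]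
    push_cast
    ring

theorem Jd.H_up (r : ℕ) (d : Matrix ι ι S6) (L : List (Fin 6)) :
    (J.up r).H d L = ((L.map fun i => (X i ^ r : S6)).prod) • J.H d L := by
  induction L with
  | nil => rw [List.map_nil, List.prod_nil, one_smul]; rfl
  | cons i L ih =>
    rw [Jd.H, Jd.H, ih, J.der_up, List.map_cons, List.prod_cons, Matrix.smul_mul, Matrix.mul_smul,
      smul_smul]

theorem Jd.homot {d : Matrix ι ι S6} (hd : d * d = W • (1 : Matrix ι ι S6)) (i : Fin 6) :
    d * J.der i d = (X i ^ J.N : S6) • (1 : Matrix ι ι S6) - J.der i d * d := by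
  rw [← J.der_W, ← hd, J.der_mul, add_sub_cancel_left]

end

section

variable [Fintype ι] [Fintype κ]

/-- the differential `A ↦ e A - s A d` -/
noncomputable def DD (s : S6) (e : Matrix κ κ S6) (d : Matrix ι ι S6) (A : Matrix κ ι S6) :
    Matrix κ ι S6 := e * A - s • (A * d)

theorem DD_mem {N : ℕ} {L : List (Fin 6)} (s : S6) (e : Matrix κ κ S6) (d : Matrix ι ι S6)
    {A : Matrix κ ι S6} (h : A ∈ IM κ ι N L) : DD s e d A ∈ IM κ ι N L :=
  Submodule.sub_mem _ (IM_mul_left _ h) (Submodule.smul_mem _ _ (IM_mul_right h _))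

variable [DecidableEq ι] [DecidableEq κ] {d : Matrix ι ι S6} {e : Matrix κ κ S6}

theorem DD_DD (hd : d * d = W • (1 : Matrix ι ι S6)) (he : e * e = W • (1 : Matrix κ κ S6))
    {s : S6} (hs : s * s = 1) (A : Matrix κ ι S6) : DD (-s) e d (DD s e d A) = 0 := by
  simp only [DD, Matrix.mul_sub, Matrix.sub_mul, Matrix.mul_smul, Matrix.smul_mul,
    Matrix.mul_assoc, hd, Matrix.mul_one]
  rw [← Matrix.mul_assoc e e, he, Matrix.smul_mul, Matrix.one_mul]
  linear_combination (norm := module) (-W * hs) • A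

omit [DecidableEq ι] in
theorem Jd.DD_der_mul (he : e * e = W • (1 : Matrix κ κ S6)) (s : S6) (i : Fin 6)
    (B : Matrix κ ι S6) :
    DD (-s) e d (J.der i e * B) = (X i ^ J.N : S6) • B - J.der i e * DD s e d B := by
  simp only [DD, Matrix.mul_sub, Matrix.mul_smul, Matrix.mul_assoc]
  rw [← Matrix.mul_assoc e, J.homot he, Matrix.sub_mul, Matrix.smul_mul, Matrix.one_mul,
    Matrix.mul_assoc]
  module

/-- the sign of a list -/
noncomputable def sl (L : List (Fin 6)) : S6 := (-1) ^ L.length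

omit [Fintype ι] [Fintype κ] [DecidableEq ι] [DecidableEq κ] in
theorem sl_cons (i : Fin 6) (L : List (Fin 6)) : sl (i :: L) = -sl L := by
  rw [sl, sl, List.length_cons, pow_succ, mul_neg_one]

omit [Fintype ι] [Fintype κ] [DecidableEq ι] [DecidableEq κ] in
theorem sl_sq (L : List (Fin 6)) : sl L * sl L = 1 := by
  rw [sl, ← mul_pow, neg_one_mul, neg_neg, one_pow]

omit [Fintype κ] [DecidableEq κ] in
theorem Jd.DD_H (hd : d * d = W • (1 : Matrix ι ι S6)) (L : List (Fin 6)) :
    DD (sl L) d d (J.H d L) ∈ IM ι ι J.N L := by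
  induction L with
  | nil =>
    rw [Jd.H, DD, sl, List.length_nil, pow_zero, one_smul, mul_one, one_mul, sub_self]
    exact Submodule.zero_mem _
  | cons i L ih =>
    rw [Jd.H, sl_cons, J.DD_der_mul hd]
    exact Submodule.sub_mem _ (IM_pow i _) (IM_cons i (IM_mul_left _ ih))

/-- closed maps commute with the products of homotopies, up to boundaries and the ideal -/
theorem Jd.comm_H (hd : d * d = W • (1 : Matrix ι ι S6)) (he : e * e = W • (1 : Matrix κ κ S6))
    {f : Matrix κ ι S6} (hf : e * f = f * d) (L : List (Fin 6)) :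
    ∃ k, f * J.H d L - J.H e L * f - DD (-sl L) e d k ∈ IM κ ι J.N L := by
  induction L with
  | nil =>
    refine ⟨0, ?_⟩
    rw [Jd.H, Jd.H, DD, Matrix.mul_one, Matrix.one_mul, Matrix.mul_zero, Matrix.zero_mul,
      smul_zero, sub_self, sub_self, sub_self]
    exact Submodule.zero_mem _
  | cons i L ih =>
    obtain ⟨k, hk⟩ := ih
    have h1 := congrArg (J.der i) hf
    rw [J.der_mul, J.der_mul] at h1
    have h2 : f * J.der i d = J.der i e * f + e * J.der i f - J.der i f * d := by
      rw [h1]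
      exact (add_sub_cancel_left _ _).symm
    have h3 := J.DD_der_mul (d := d) he (-sl L) i k
    rw [neg_neg] at h3
    refine ⟨J.der i f * J.H d L - J.der i e * k, ?_⟩
    have h4 : f * J.H d (i :: L) - J.H e (i :: L) * f -
        DD (-sl (i :: L)) e d (J.der i f * J.H d L - J.der i e * k) =
        J.der i e * (f * J.H d L - J.H e L * f - DD (-sl L) e d k) + (X i ^ J.N : S6) • k -
          J.der i f * DD (sl L) d d (J.H d L) := by
      rw [Jd.H, Jd.H, ← Matrix.mul_assoc f, h2, sl_cons, neg_neg, eq_add_of_sub_eq h3.symm]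
      simp only [DD, Matrix.mul_sub, Matrix.sub_mul, Matrix.add_mul, Matrix.mul_smul,
        Matrix.mul_assoc]
      module
    rw [h4]
    exact Submodule.sub_mem _ (Submodule.add_mem _ (IM_cons i (IM_mul_left _ hk)) (IM_pow i _))
      (IM_cons i (IM_mul_left _ (J.DD_H hd L)))

/-- the Koszul descent: `f H` a boundary modulo the ideal forces `f` to be a boundary -/
theorem Jd.descent (hd : d * d = W • (1 : Matrix ι ι S6)) (he : e * e = W • (1 : Matrix κ κ S6))
    {f : Matrix κ ι S6} (hf : e * f = f * d) (L : List (Fin 6)) (hL : L.Nodup) :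
    (∃ u, f * J.H d L - DD (-sl L) e d u ∈ IM κ ι J.N L) →
      ∃ u : Matrix κ ι S6, f = e * u + u * d := by
  induction L with
  | nil =>
    rintro ⟨u, hu⟩
    refine ⟨u, ?_⟩
    have h1 := IM_nil hu
    rw [Jd.H, DD, sl, List.length_nil, pow_zero, Matrix.mul_one, neg_smul, one_smul,
      sub_neg_eq_add, sub_eq_zero] at h1
    exact h1
  | cons i L ih =>
    rintro ⟨u, hu⟩
    obtain ⟨hi, hL'⟩ := List.nodup_cons.1 hL
    obtain ⟨B, hB⟩ := IM_split hu
    refine ih hL' ⟨B, IM_reg hi ?_⟩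
    have h1 := DD_DD hd he (sl_sq L) u
    have h2 := J.DD_der_mul (d := d) hd (sl L) i (J.H d L)
    have h4 : (X i ^ J.N : S6) • (f * J.H d L - DD (-sl L) e d B) =
        DD (-sl L) e d (f * J.H d (i :: L) - DD (-sl (i :: L)) e d u - (X i ^ J.N : S6) • B) +
          f * (J.der i d * DD (sl L) d d (J.H d L)) := by
      have h5 : DD (-sl L) e d (f * J.H d (i :: L)) = f * DD (-sl L) d d (J.der i d * J.H d L) := by
        rw [Jd.H, DD, DD, ← Matrix.mul_assoc e, hf]
        simp only [Matrix.mul_sub, Matrix.mul_smul, Matrix.mul_assoc]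
      rw [h2, Matrix.mul_sub, Matrix.mul_smul] at h5
      have h6 : DD (-sl L) e d
          (f * J.H d (i :: L) - DD (-sl (i :: L)) e d u - (X i ^ J.N : S6) • B) =
          DD (-sl L) e d (f * J.H d (i :: L)) - DD (-sl L) e d (DD (sl L) e d u) -
            (X i ^ J.N : S6) • DD (-sl L) e d B := by
        rw [sl_cons, neg_neg]
        generalize DD (sl L) e d u = v
        simp only [DD, Matrix.mul_sub, Matrix.sub_mul, Matrix.mul_smul, Matrix.smul_mul]
        module
      rw [h6, h5, h1]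
      module
    rw [h4]
    exact Submodule.add_mem _ (DD_mem _ _ _ hB) (IM_mul_left _ (IM_mul_left _ (J.DD_H hd L)))

end

end Vale.Agent.P287T.Cy
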