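import Mathlib.LinearAlgebra.Quotient.Bilinear
import Mathlib.LinearAlgebra.PerfectPairing.Basic
import Vale.Agent.P287T.Cy.Jd

/-!
# Serre duality for graded matrix factorizations of a smooth cubic in six variables

The trace `J.tr p d` on endomorphisms of degree `6` (the shift `[2]`) kills the null-homotopic
maps, is cyclic up to the sign of the degree, and the pairing `(f, g) ↦ tr (g f)` between the
homotopy classes of degree `j` and of degree `6 - j` is perfect.
-/

open MvPolynomial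

namespace Vale.Agent.P287T.Cy

open Vale.Agent.P287Z.O Vale.Agent.P287Z.O.L Vale.Agent.P287Z.T

theorem dual_step {V V' U : Type*} [AddCommGroup V] [Module ℂ V] [AddCommGroup V'] [Module ℂ V']
    [AddCommGroup U] [Module ℂ U] [Module.Finite ℂ V'] (D : V →ₗ[ℂ] V')
    (β : V' →ₗ[ℂ] U →ₗ[ℂ] ℂ) (hβ : Function.Injective β) (φ : V →ₗ[ℂ] ℂ)
    (hφ : ∀ v, D v = 0 → φ v = 0) : ∃ a : U, ∀ v, φ v = β (D v) a := by
  have h1 : φ ∈ LinearMap.range D.dualMap := by
    rw [LinearMap.range_dualMap_eq_dualAnnihilator_ker, Submodule.mem_dualAnnihilator]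
    exact hφ
  obtain ⟨ψ, rfl⟩ := h1
  obtain ⟨a, rfl⟩ := LinearMap.flip_surjective_iff₁.2 hβ ψ
  exact ⟨a, fun _ => rfl⟩

section

variable {U U' : Type*} [AddCommGroup U] [Module ℂ U] [AddCommGroup U'] [Module ℂ U']
  {Z B : Submodule ℂ U} {Z' B' : Submodule ℂ U'} (β : U →ₗ[ℂ] U' →ₗ[ℂ] ℂ)
  (h : ∀ z ∈ B, ∀ z' ∈ Z', β z z' = 0) (h' : ∀ z ∈ Z, ∀ z' ∈ B', β z z' = 0)

/-- a pairing of subquotients -/
noncomputable def hqPair : HQ Z B →ₗ[ℂ] HQ Z' B' →ₗ[ℂ] ℂ :=
  LinearMap.liftQ₂ _ _ (β.domRestrict₁₂ Z Z')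
    (fun _ hz => LinearMap.ext fun z' => h _ hz _ z'.2)
    (fun _ hz' => LinearMap.ext fun z => h' _ z.2 _ hz')

theorem hqPair_mk (z : Z) (z' : Z') :
    hqPair β h h' (Submodule.Quotient.mk z) (Submodule.Quotient.mk z') = β z z' := rfl

theorem hqPair_perf [Module.Finite ℂ Z] (k : ∀ z ∈ Z, (∀ z' ∈ Z', β z z' = 0) → z ∈ B)
    (k' : ∀ z' ∈ Z', (∀ z ∈ Z, β z z' = 0) → z' ∈ B') : (hqPair β h h').IsPerfPair := by
  refine LinearMap.IsPerfPair.of_injective ?_ ?_
  · rw [injective_iff_map_eq_zero]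
    intro x hx
    obtain ⟨f, rfl⟩ := Submodule.Quotient.mk_surjective _ x
    exact (Submodule.Quotient.mk_eq_zero _).2 (k _ f.2 fun g hg =>
      LinearMap.congr_fun hx (Submodule.Quotient.mk ⟨g, hg⟩))
  · rw [injective_iff_map_eq_zero]
    intro x hx
    obtain ⟨g, rfl⟩ := Submodule.Quotient.mk_surjective _ x
    exact (Submodule.Quotient.mk_eq_zero _).2 (k' _ g.2 fun f hf =>
      LinearMap.congr_fun hx (Submodule.Quotient.mk ⟨f, hf⟩))

end

variable {ι κ : Type} [Fintype ι] [Fintype κ] {W : S6}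

/-- the residue pairing of matrices -/
noncomputable def rp (N : ℕ) : Matrix ι κ S6 →ₗ[ℂ] Matrix κ ι S6 →ₗ[ℂ] ℂ :=
  LinearMap.mk₂ ℂ (fun g A => lam N (g * A).trace)
    (fun g g' A => by rw [Matrix.add_mul, Matrix.trace_add, map_add])
    (fun c g A => by rw [Matrix.smul_mul, Matrix.trace_smul, map_smul])
    (fun g A A' => by rw [Matrix.mul_add, Matrix.trace_add, map_add])
    (fun c g A => by rw [Matrix.mul_smul, Matrix.trace_smul, map_smul])

theorem rp_apply (N : ℕ) (g : Matrix ι κ S6) (A : Matrix κ ι S6) :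
    rp N g A = lam N (g * A).trace := rfl

theorem finite_ZZ (p : ι → ℤ) (d : Matrix ι ι S6) (q : κ → ℤ) (e : Matrix κ κ S6) (j : ℤ) :
    Module.Finite ℂ (ZZ p d q e j) := by
  have := finite_MM p q j
  exact Submodule.finiteDimensional_of_le (S₂ := MM p q j) fun _ h => h.1

/-- **Hom-finiteness** -/
theorem finite_HH (p : ι → ℤ) (d : Matrix ι ι S6) (q : κ → ℤ) (e : Matrix κ κ S6) (j : ℤ) :
    Module.Finite ℂ (HH p d q e j) := by
  have := finite_ZZ p d q e j
  infer_instance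

variable [DecidableEq ι] [DecidableEq κ] (J : Jd W)

/-- the trace on endomorphisms of degree `6` -/
noncomputable def Jd.tr (p : ι → ℤ) (d : Matrix ι ι S6) : Matrix ι ι S6 →ₗ[ℂ] ℂ :=
  (rp J.N).flip (J.H d (List.finRange 6) * eps p)

theorem Jd.tr_apply (p : ι → ℤ) (d φ : Matrix ι ι S6) :
    J.tr p d φ = lam J.N (eps p * φ * J.H d (List.finRange 6)).trace := by
  rw [Jd.tr, LinearMap.flip_apply, rp_apply, ← Matrix.mul_assoc, Matrix.trace_mul_cycle]

theorem sl_top : sl (List.finRange 6) = 1 := by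
  rw [sl, List.length_finRange]
  exact Even.neg_one_pow ⟨3, rfl⟩

theorem prod_X_pow (r : ℕ) :
    ((List.finRange 6).map fun i => (X i ^ r : S6)).prod = monomial (cst r) 1 := by
  rw [← Fin.prod_univ_def, monomial_eq, C_1, one_mul, Finsupp.prod_fintype _ _ fun i => pow_zero _]
  rfl

theorem Jd.tr_up (r : ℕ) (p : ι → ℤ) (d : Matrix ι ι S6) : (J.up r).tr p d = J.tr p d := by
  refine LinearMap.ext fun φ => ?_
  rw [Jd.tr_apply, Jd.tr_apply, J.H_up, prod_X_pow, Matrix.mul_smul, Matrix.trace_smul,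
    smul_eq_mul, lam, lam, lcoeff_apply, lcoeff_apply]
  have h1 : cst ((J.up r).N - 1) = cst r + cst (J.N - 1) := by
    ext i
    have := J.pos
    rw [Finsupp.add_apply, cst_apply, cst_apply, cst_apply]
    change J.N + r - 1 = _
    lia
  rw [h1, coeff_monomial_mul, one_mul]

variable {p : ι → ℤ} {d : Matrix ι ι S6} {q : κ → ℤ} {e : Matrix κ κ S6}

theorem trace_eps_bd (hd : d ∈ MM p p 3) (k : Matrix ι ι S6) :
    (eps p * (d * k + k * d)).trace = 0 := by
  rw [Matrix.mul_add, Matrix.trace_add, Matrix.trace_mul_cycle' (eps p) k d, ← Matrix.mul_assoc d,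
    d_mul_eps hd, Matrix.neg_mul, Matrix.trace_neg, Matrix.mul_assoc, add_neg_cancel]

/-- the trace kills null-homotopic maps -/
theorem Jd.tr_bd (hX : IsMF W p d) (k : Matrix ι ι S6) : J.tr p d (d * k + k * d) = 0 := by
  have h1 := J.DD_H hX.sq (List.finRange 6)
  rw [sl_top] at h1
  have h2 : eps p * (d * k + k * d) * J.H d (List.finRange 6) =
      eps p * (d * (k * J.H d (List.finRange 6)) + k * J.H d (List.finRange 6) * d) +
        eps p * k * DD 1 d d (J.H d (List.finRange 6)) := by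
    simp only [DD, Matrix.mul_sub, Matrix.mul_add, Matrix.add_mul, one_smul, Matrix.mul_assoc]
    abel
  rw [J.tr_apply, h2, Matrix.trace_add, trace_eps_bd hX.deg, zero_add]
  exact lam_trace_IM J.pos (IM_mul_left _ h1)

/-- the trace is cyclic up to the sign of the degree -/
theorem Jd.tr_comm (hX : IsMF W p d) (hY : IsMF W q e) {j : ℤ} {f : Matrix κ ι S6}
    (hf : f ∈ ZZ p d q e j) {g : Matrix ι κ S6} (hg : d * g = g * e) :
    J.tr p d (g * f) = sg j * J.tr q e (f * g) := by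
  obtain ⟨k, hk⟩ := J.comm_H hX.sq hY.sq hf.2 (List.finRange 6)
  rw [sl_top] at hk
  have h2 : eps p * (g * f) * J.H d (List.finRange 6) =
      eps p * (d * (g * k) + g * k * d) + eps p * (g * J.H e (List.finRange 6)) * f +
        eps p * g * (f * J.H d (List.finRange 6) - J.H e (List.finRange 6) * f -
          DD (-1) e d k) := by
    rw [← Matrix.mul_assoc d, hg]
    simp only [DD, Matrix.mul_sub, Matrix.mul_add, neg_smul, one_smul, Matrix.mul_assoc,
      Matrix.mul_neg]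
    abel
  rw [J.tr_apply, J.tr_apply, h2, Matrix.trace_add, Matrix.trace_add, trace_eps_bd hX.deg, zero_add,
    map_add, lam_trace_IM J.pos (IM_mul_left _ hk), add_zero, Matrix.trace_mul_cycle,
    mul_eps hf.1, Matrix.smul_mul, Matrix.trace_smul, map_smul, smul_eq_mul]
  simp only [Matrix.mul_assoc]

theorem Jd.nondeg_of_large (hX : IsMF W p d) (hY : IsMF W q e) {j j' : ℤ} (hj : j + j' = 6)
    (hN : ∀ i l, j' + 3 + q l - p i < 2 * J.N) {f : Matrix κ ι S6} (hf : f ∈ ZZ p d q e j)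
    (h : ∀ g ∈ ZZ q e p d j', J.tr p d (g * f) = 0) : f ∈ BB p d q e j := by
  have hH := J.H_mem hX.deg (List.finRange 6)
  rw [List.length_finRange] at hH
  have := finite_MM q p (j' + 3)
  let D : MM q p j' →ₗ[ℂ] MM q p (j' + 3) :=
    { toFun := fun g => ⟨d * g.1 - g.1 * e, Submodule.sub_mem _ (MM_mul hX.deg g.2 rfl)
        (MM_mul g.2 hY.deg (add_comm _ _))⟩
      map_add' := fun g g' => Subtype.ext (by
        simp only [Submodule.coe_add, Matrix.mul_add, Matrix.add_mul]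
        abel)
      map_smul' := fun c g => Subtype.ext (by
        simp only [Submodule.coe_smul, Matrix.mul_smul, Matrix.smul_mul, RingHom.id_apply,
          smul_sub]) }
  obtain ⟨a, ha⟩ := dual_step D
    ((rp J.N).domRestrict₁₂ (MM q p (j' + 3)) (MM p q (12 * J.N - 12 - (j' + 3))))
    (by
      rw [injective_iff_map_eq_zero]
      intro g hg
      refine Subtype.ext (eq_zero_of_IM hN g.2 (ndg J.pos (add_sub_cancel _ _) g.2 fun a ha => ?_))
      rw [Matrix.trace_mul_comm]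
      exact LinearMap.congr_fun hg ⟨a, ha⟩)
    (((rp J.N).flip (f * J.H d (List.finRange 6) * eps p)).domRestrict (MM q p j'))
    (fun g hg => by
      rw [← h g.1 ⟨g.2, sub_eq_zero.1 (congrArg Subtype.val hg)⟩, Jd.tr]
      simp only [LinearMap.domRestrict_apply, LinearMap.flip_apply, rp_apply, Matrix.mul_assoc])
  have h1 : f * J.H d (List.finRange 6) * eps p + (e * a.1 - a.1 * d) ∈
      IM κ ι J.N (List.finRange 6) := by
    refine ndg (p := p) (q := q) (t := 12 * J.N - 12 - j') (t' := j') J.pos (sub_add_cancel _ _)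
      (Submodule.add_mem _ (MM_mul (MM_mul hf.1 hH rfl) (eps_mem p) (by push_cast; lia))
        (Submodule.sub_mem _ (MM_mul hY.deg a.2 (by lia)) (MM_mul a.2 hX.deg (by lia))))
      fun g hg => ?_
    have h2 : lam J.N (g * (f * J.H d (List.finRange 6) * eps p)).trace =
        lam J.N ((d * g - g * e) * a.1).trace := ha ⟨g, hg⟩
    rw [Matrix.mul_add, Matrix.trace_add, map_add, h2, ← map_add, Matrix.sub_mul, Matrix.mul_sub,
      Matrix.trace_sub, Matrix.trace_sub, ← Matrix.trace_mul_cycle g a.1 d]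
    simp only [Matrix.mul_assoc, sub_add_sub_cancel', sub_self, map_zero]
  obtain ⟨u, hu⟩ := J.descent hX.sq hY.sq hf.2 (List.finRange 6) (List.nodup_finRange 6)
    ⟨-(a.1 * eps p), by
      have h3 : f * J.H d (List.finRange 6) - DD (-sl (List.finRange 6)) e d (-(a.1 * eps p)) =
          (f * J.H d (List.finRange 6) * eps p + (e * a.1 - a.1 * d)) * eps p := by
        rw [sl_top, Matrix.add_mul, Matrix.mul_assoc _ (eps p), eps_mul_eps, Matrix.sub_mul,
          Matrix.mul_assoc a.1, d_mul_eps hX.deg]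
        simp only [DD, Matrix.mul_one, Matrix.mul_neg, Matrix.neg_mul, neg_smul, one_smul,
          Matrix.mul_assoc]
        abel
      rw [h3]
      exact IM_mul_right h1 _⟩
  exact mem_BB_of hX.deg hY.deg hf.1 hu

/-- **nondegeneracy** in the first map -/
theorem Jd.nondeg (hX : IsMF W p d) (hY : IsMF W q e) {j j' : ℤ} (hj : j + j' = 6)
    {f : Matrix κ ι S6} (hf : f ∈ ZZ p d q e j)
    (h : ∀ g ∈ ZZ q e p d j', J.tr p d (g * f) = 0) : f ∈ BB p d q e j := by
  obtain ⟨b, hb⟩ := (Set.finite_range fun x : ι × κ => j' + 3 + q x.2 - p x.1).bddAbove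
  refine (J.up b.toNat).nondeg_of_large hX hY hj (fun i l => ?_) hf (by rwa [J.tr_up])
  have h1 : j' + 3 + q l - p i ≤ b := hb ⟨(i, l), rfl⟩
  have h2 := J.pos
  change _ < 2 * ((J.N + b.toNat : ℕ) : ℤ)
  lia

/-- **nondegeneracy** in the second map -/
theorem Jd.nondeg' (hX : IsMF W p d) (hY : IsMF W q e) {j j' : ℤ} (hj : j + j' = 6)
    {g : Matrix ι κ S6} (hg : g ∈ ZZ q e p d j')
    (h : ∀ f ∈ ZZ p d q e j, J.tr p d (g * f) = 0) : g ∈ BB q e p d j' :=
  J.nondeg hY hX ((add_comm _ _).trans hj) hg fun f hf => by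
    have h1 := h f hf
    rw [J.tr_comm hX hY hf hg.2] at h1
    exact (mul_eq_zero.1 h1).resolve_left (sg_ne_zero j)

omit [DecidableEq κ] in
theorem Jd.tr_BB_right (hX : IsMF W p d) {j : ℤ} {f : Matrix κ ι S6} (hf : f ∈ BB p d q e j)
    {g : Matrix ι κ S6} (hg : d * g = g * e) : J.tr p d (g * f) = 0 := by
  obtain ⟨h, -, rfl⟩ := hf
  rw [Matrix.mul_add, ← Matrix.mul_assoc, ← hg, Matrix.mul_assoc, ← Matrix.mul_assoc g]
  exact J.tr_bd hX _

omit [DecidableEq κ] in
theorem Jd.tr_BB_left (hX : IsMF W p d) {j : ℤ} {g : Matrix ι κ S6} (hg : g ∈ BB q e p d j)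
    {f : Matrix κ ι S6} (hf : e * f = f * d) : J.tr p d (g * f) = 0 := by
  obtain ⟨h, -, rfl⟩ := hg
  rw [Matrix.add_mul, Matrix.mul_assoc h, hf, Matrix.mul_assoc, ← Matrix.mul_assoc h]
  exact J.tr_bd hX _

/-- the pairing `(f, g) ↦ tr (g f)` on matrices -/
noncomputable def Jd.prM (κ : Type) [Fintype κ] (p : ι → ℤ) (d : Matrix ι ι S6) :
    Matrix κ ι S6 →ₗ[ℂ] Matrix ι κ S6 →ₗ[ℂ] ℂ :=
  LinearMap.mk₂ ℂ (fun f g => J.tr p d (g * f))
    (fun f f' g => by rw [Matrix.mul_add, map_add])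
    (fun c f g => by rw [Matrix.mul_smul, map_smul])
    (fun f g g' => by rw [Matrix.add_mul, map_add])
    (fun c f g => by rw [Matrix.smul_mul, map_smul])

omit [DecidableEq κ] in
theorem Jd.prM_apply (f : Matrix κ ι S6) (g : Matrix ι κ S6) :
    J.prM κ p d f g = J.tr p d (g * f) := by
  rw [Jd.prM, LinearMap.mk₂_apply]

/-- the Serre pairing on homotopy classes -/
noncomputable def Jd.pr (hX : IsMF W p d) (q : κ → ℤ) (e : Matrix κ κ S6) (j j' : ℤ) :
    HH p d q e j →ₗ[ℂ] HH q e p d j' →ₗ[ℂ] ℂ :=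
  hqPair (J.prM κ p d)
    (fun _ hf _ hg => (J.prM_apply _ _).trans (J.tr_BB_right hX hf hg.2))
    (fun _ hf _ hg => (J.prM_apply _ _).trans (J.tr_BB_left hX hg hf.2))

omit [DecidableEq κ] in
theorem Jd.pr_mk (hX : IsMF W p d) {j j' : ℤ} (f : ZZ p d q e j) (g : ZZ q e p d j') :
    J.pr hX q e j j' (Submodule.Quotient.mk f) (Submodule.Quotient.mk g) =
      J.tr p d (g.1 * f.1) :=
  (hqPair_mk _ _ _ f g).trans (J.prM_apply _ _)

/-- **Serre duality**: the pairing is perfect -/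
theorem Jd.isPerfPair (hX : IsMF W p d) (hY : IsMF W q e) {j j' : ℤ} (hj : j + j' = 6) :
    (J.pr hX q e j j').IsPerfPair :=
  have := finite_ZZ p d q e j
  hqPair_perf _ _ _
    (fun _ hf h => J.nondeg hX hY hj hf fun g hg => (J.prM_apply _ _).symm.trans (h g hg))
    (fun _ hg h => J.nondeg' hX hY hj hg fun f hf => (J.prM_apply _ _).symm.trans (h f hf))

/-- **Serre duality**, dimension form -/
theorem serre (hW : V.Hg 6 W) (hs : Sm W) (hX : IsMF W p d) (hY : IsMF W q e) {j j' : ℤ}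
    (hj : j + j' = 6) : Module.finrank ℂ (HH p d q e j) = Module.finrank ℂ (HH q e p d j') := by
  obtain ⟨J⟩ := nonempty_jd hW hs
  rw [(LinearEquiv.ofBijective _ (J.isPerfPair hX hY hj).bijective_left).finrank_eq]
  exact Subspace.dual_finrank_eq

omit [DecidableEq ι] [DecidableEq κ] in
theorem ZZ_eq_zero {j : ℤ} (h : ∀ i l, j + p l - q i < 0) {f : Matrix κ ι S6}
    (hf : f ∈ ZZ p d q e j) : f = 0 := by
  ext i l : 1
  exact hga_neg_eq_zero (hf.1 i l) (h i l)

/-- no maps in large positive or negative degree -/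
theorem exists_bound (hW : V.Hg 6 W) (hs : Sm W) (hX : IsMF W p d) (hY : IsMF W q e) :
    ∃ b : ℕ, ∀ j : ℤ, (b : ℤ) < |j| → Subsingleton (HH p d q e j) := by
  obtain ⟨J⟩ := nonempty_jd hW hs
  obtain ⟨b, hb⟩ := (Set.finite_range fun x : ι × κ => |p x.1 - q x.2|).bddAbove
  refine ⟨b.toNat + 6, fun j hj => hq_subsingleton fun f hf => ?_⟩
  have h1 : ∀ l i, |p l - q i| ≤ b := fun l i => hb ⟨(l, i), rfl⟩
  rcases lt_abs.1 hj with h2 | h2
  · refine J.nondeg hX hY (add_sub_cancel _ _) hf fun g hg => ?_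
    rw [ZZ_eq_zero (fun i l => ?_) hg, Matrix.zero_mul, map_zero]
    have h3 := abs_le.1 (h1 i l)
    lia
  · rw [ZZ_eq_zero (fun i l => ?_) hf]
    · exact Submodule.zero_mem _
    · have h3 := abs_le.1 (h1 l i)
      lia

end Vale.Agent.P287T.Cy
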