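import Vale.Agent.P287Z.O.L.HgApi
import Vale.Agent.P287Z.T.Hq

/-!
# Graded matrix factorizations as raw matrices (P287 phase 2, block CY2)

Charges `p : ι → ℤ`, differential `d` of degree `3`, `deg xᵢ = 2`, `deg W = 6`.
`HH p d q e j` is the space of homotopy classes of closed maps of degree `j` from `(p, d)` to
`(q, e)`; degree `3 k` is the shift `[k]`.
-/

open MvPolynomial

namespace Vale.Agent.P287T.Cy

open Vale.Agent.P287Z.O Vale.Agent.P287Z.O.L Vale.Agent.P287Z.T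

/-- the polynomial ring in six variables -/
abbrev S6 : Type := MvPolynomial (Fin 6) ℂ

variable {ι κ : Type}

/-- matrices of degree `j` from charges `p` to charges `q` -/
def MM (p : ι → ℤ) (q : κ → ℤ) (j : ℤ) : Submodule ℂ (Matrix κ ι S6) where
  carrier := {g | ∀ i l, V.Hg (j + p l - q i) (g i l)}
  zero_mem' := fun _ _ => hga_zero _
  add_mem' := fun h h' i l => hga_add (h i l) (h' i l)
  smul_mem' := fun c _ h i l => hga_smul c (h i l)

theorem mem_MM {p : ι → ℤ} {q : κ → ℤ} {j : ℤ} {g : Matrix κ ι S6} :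
    g ∈ MM p q j ↔ ∀ i l, V.Hg (j + p l - q i) (g i l) := Iff.rfl

/-- `(p, d)` is a graded matrix factorization of `W` -/
structure IsMF [Fintype ι] [DecidableEq ι] (W : S6) (p : ι → ℤ) (d : Matrix ι ι S6) : Prop where
  deg : d ∈ MM p p 3
  sq : d * d = W • (1 : Matrix ι ι S6)

variable [Fintype ι] [Fintype κ]

/-- closed maps of degree `j` -/
def ZZ (p : ι → ℤ) (d : Matrix ι ι S6) (q : κ → ℤ) (e : Matrix κ κ S6) (j : ℤ) :
    Submodule ℂ (Matrix κ ι S6) where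
  carrier := {g | (∀ i l, V.Hg (j + p l - q i) (g i l)) ∧ e * g = g * d}
  zero_mem' := ⟨fun _ _ => hga_zero _, by rw [Matrix.mul_zero, Matrix.zero_mul]⟩
  add_mem' := fun h h' => ⟨fun i l => hga_add (h.1 i l) (h'.1 i l), by
    rw [Matrix.mul_add, Matrix.add_mul, h.2, h'.2]⟩
  smul_mem' := fun c _ h => ⟨fun i l => hga_smul c (h.1 i l), by
    rw [Matrix.mul_smul, Matrix.smul_mul, h.2]⟩

/-- null-homotopic maps of degree `j` -/
def BB (p : ι → ℤ) (d : Matrix ι ι S6) (q : κ → ℤ) (e : Matrix κ κ S6) (j : ℤ) :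
    Submodule ℂ (Matrix κ ι S6) where
  carrier := {g | ∃ h : Matrix κ ι S6,
    (∀ i l, V.Hg (j - 3 + p l - q i) (h i l)) ∧ g = e * h + h * d}
  zero_mem' := ⟨0, fun _ _ => hga_zero _, by rw [Matrix.mul_zero, Matrix.zero_mul, add_zero]⟩
  add_mem' := by
    rintro _ _ ⟨h, h1, rfl⟩ ⟨h', h1', rfl⟩
    refine ⟨h + h', fun i l => hga_add (h1 i l) (h1' i l), ?_⟩
    rw [Matrix.mul_add, Matrix.add_mul]
    abel
  smul_mem' := by
    rintro c _ ⟨h, h1, rfl⟩
    refine ⟨c • h, fun i l => hga_smul c (h1 i l), ?_⟩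
    rw [Matrix.mul_smul, Matrix.smul_mul, smul_add]

/-- homotopy classes of closed maps of degree `j` -/
abbrev HH (p : ι → ℤ) (d : Matrix ι ι S6) (q : κ → ℤ) (e : Matrix κ κ S6) (j : ℤ) : Type :=
  HQ (ZZ p d q e j) (BB p d q e j)

/-- no common zero of the partial derivatives besides the origin -/
def Sm (W : S6) : Prop := ∀ x : Fin 6 → ℂ, (∀ j, eval x (pderiv j W) = 0) → x = 0

theorem mem_ZZ {p : ι → ℤ} {d : Matrix ι ι S6} {q : κ → ℤ} {e : Matrix κ κ S6} {j : ℤ}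
    {g : Matrix κ ι S6} : g ∈ ZZ p d q e j ↔ g ∈ MM p q j ∧ e * g = g * d := Iff.rfl

theorem mem_BB {p : ι → ℤ} {d : Matrix ι ι S6} {q : κ → ℤ} {e : Matrix κ κ S6} {j : ℤ}
    {g : Matrix κ ι S6} :
    g ∈ BB p d q e j ↔ ∃ h ∈ MM p q (j - 3), g = e * h + h * d := Iff.rfl

theorem isMF_gmf {W : S6} {n : ℕ} (X : V.GMF W n) : IsMF W X.p X.d := ⟨X.deg, X.sq⟩

theorem ZZ_gmf {W : S6} {m n : ℕ} (X : V.GMF W m) (Y : V.GMF W n) (j : ℤ) :
    ZZ X.p X.d Y.p Y.d j = ZM X Y j := rfl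

theorem BB_gmf {W : S6} {m n : ℕ} (X : V.GMF W m) (Y : V.GMF W n) (j : ℤ) :
    BB X.p X.d Y.p Y.d j = BM X Y j := rfl

end Vale.Agent.P287T.Cy
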