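import Vale.Agent.P287T.Cy.Defs

/-!
# Graded matrices, the parity operator, the ideals `(xᵢ ^ N)` (P287 phase 2, block CY2)
-/

open MvPolynomial

namespace Vale.Agent.P287T.Cy

open Vale.Agent.P287Z.O Vale.Agent.P287Z.O.L Vale.Agent.P287Z.T

variable {ι κ μ : Type}

theorem MM_mul [Fintype κ] {p : ι → ℤ} {q : κ → ℤ} {r : μ → ℤ} {a b c : ℤ} {g : Matrix μ κ S6}
    {f : Matrix κ ι S6} (hg : g ∈ MM q r b) (hf : f ∈ MM p q a) (h : a + b = c) :
    g * f ∈ MM p r c := by
  intro i l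
  rw [Matrix.mul_apply]
  exact hga_sum _ fun k _ => hga_mul' (hg i k) (hf k l) (by lia)

theorem MM_one [DecidableEq ι] (p : ι → ℤ) : (1 : Matrix ι ι S6) ∈ MM p p 0 := by
  intro i l
  rw [Matrix.one_apply]
  split_ifs with h
  · subst h
    rw [zero_add, sub_self]
    exact hga_one
  · exact hga_zero _

theorem MM_smul {p : ι → ℤ} {q : κ → ℤ} {a b c : ℤ} {u : S6} {f : Matrix κ ι S6}
    (hu : V.Hg b u) (hf : f ∈ MM p q a) (h : a + b = c) : u • f ∈ MM p q c := fun i l =>
  hga_mul' hu (hf i l) (by lia)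

theorem MM_pderiv {p : ι → ℤ} {q : κ → ℤ} {a : ℤ} {f : Matrix κ ι S6} (hf : f ∈ MM p q a)
    (j : Fin 6) : f.map (pderiv j) ∈ MM p q (a - 2) := fun i l =>
  IsWeightedHomogeneous.pderiv (hf i l) (by lia)

theorem hg_totalDegree {n : ℤ} {f : S6} (hf : V.Hg n f) : f.totalDegree ≤ n.toNat := by
  rw [totalDegree, Finset.sup_le_iff]
  intro m hm
  have h1 := hg_iff.1 hf m hm
  have h2 : (m.sum fun _ e => e) = m.degree := rfl
  rw [h2]
  lia

theorem finite_MM [Finite ι] [Finite κ] (p : ι → ℤ) (q : κ → ℤ) (j : ℤ) :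
    Module.Finite ℂ (MM p q j) := by
  let T : Submodule ℂ (Matrix κ ι S6) := Submodule.pi Set.univ fun i : κ =>
    Submodule.pi Set.univ fun l : ι => restrictTotalDegree (Fin 6) ℂ (j + p l - q i).toNat
  have hT : T.FG := Submodule.fg_pi fun i => Submodule.fg_pi fun l =>
    Module.Finite.iff_fg.1 inferInstance
  have : Module.Finite ℂ T := Module.Finite.iff_fg.2 hT
  refine Submodule.finiteDimensional_of_le (S₂ := T) fun g hg i _ l _ => ?_
  exact (mem_restrictTotalDegree _ _ _).2 (hg_totalDegree (hg i l))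

/-- entrywise homogeneous part -/
noncomputable def mpart (p : ι → ℤ) (q : κ → ℤ) (j : ℤ) (u : Matrix κ ι S6) : Matrix κ ι S6 :=
  Matrix.of fun i l => hpart (j + p l - q i) (u i l)

theorem mpart_mem (p : ι → ℤ) (q : κ → ℤ) (j : ℤ) (u : Matrix κ ι S6) :
    mpart p q j u ∈ MM p q j := fun _ _ => hga_hpart _ _

theorem mpart_self {p : ι → ℤ} {q : κ → ℤ} {j : ℤ} {u : Matrix κ ι S6} (h : u ∈ MM p q j) :
    mpart p q j u = u := by
  ext i l : 1
  exact hpart_eq_self (h i l)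

theorem mpart_add (p : ι → ℤ) (q : κ → ℤ) (j : ℤ) (u v : Matrix κ ι S6) :
    mpart p q j (u + v) = mpart p q j u + mpart p q j v := by
  ext i l : 1
  exact hpart_add _ _ _

theorem mpart_mul_left [Fintype κ] (p : ι → ℤ) {q : κ → ℤ} {r : μ → ℤ} {b : ℤ}
    {g : Matrix μ κ S6} (hg : g ∈ MM q r b) (j : ℤ) (u : Matrix κ ι S6) :
    mpart p r j (g * u) = g * mpart p q (j - b) u := by
  ext i l : 1
  rw [mpart, Matrix.of_apply, Matrix.mul_apply, Matrix.mul_apply, hpart_sum]
  refine Finset.sum_congr rfl fun k _ => ?_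
  rw [hpart_mul (hg i k), mpart, Matrix.of_apply,
    show j + p l - r i - (b + q k - r i) = j - b + p l - q k by lia]

theorem mpart_mul_right [Fintype κ] {p : ι → ℤ} {q : κ → ℤ} (r : μ → ℤ) {a : ℤ}
    {f : Matrix κ ι S6} (hf : f ∈ MM p q a) (j : ℤ) (u : Matrix μ κ S6) :
    mpart p r j (u * f) = mpart q r (j - a) u * f := by
  ext i l : 1
  rw [mpart, Matrix.of_apply, Matrix.mul_apply, Matrix.mul_apply, hpart_sum]
  refine Finset.sum_congr rfl fun k _ => ?_
  rw [mul_comm, hpart_mul (hf k l), mpart, Matrix.of_apply, mul_comm,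
    show j + p l - r i - (a + p l - q k) = j - a + q k - r i by lia]

/-- a homogeneous map with any null-homotopy has a homogeneous one -/
theorem mem_BB_of [Fintype ι] [Fintype κ] {p : ι → ℤ} {d : Matrix ι ι S6} {q : κ → ℤ}
    {e : Matrix κ κ S6} (hd : d ∈ MM p p 3) (he : e ∈ MM q q 3) {j : ℤ} {f u : Matrix κ ι S6}
    (hf : f ∈ MM p q j) (h : f = e * u + u * d) : f ∈ BB p d q e j := by
  refine ⟨mpart p q (j - 3) u, mpart_mem _ _ _ _, ?_⟩
  rw [← mpart_mul_left p he, ← mpart_mul_right q hd, ← mpart_add, ← h, mpart_self hf]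

/-! ### the parity operator -/

/-- the sign `(-1) ^ n` -/
noncomputable def sg (n : ℤ) : ℂ := (-1) ^ n

theorem sg_add (a b : ℤ) : sg (a + b) = sg a * sg b := zpow_add₀ (by norm_num) _ _

theorem sg_two_mul (a : ℤ) : sg (2 * a) = 1 := Even.neg_one_zpow ⟨a, two_mul a⟩

theorem sg_mul_self (a : ℤ) : sg a * sg a = 1 := by rw [← sg_add, ← two_mul, sg_two_mul]

theorem sg_ne_zero (a : ℤ) : sg a ≠ 0 := zpow_ne_zero _ (by norm_num)

theorem sg_three : sg 3 = -1 := by
  rw [sg]
  norm_num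

/-- the parity operator -/
noncomputable def eps [DecidableEq ι] (p : ι → ℤ) : Matrix ι ι S6 :=
  Matrix.diagonal fun i => C (sg (p i))

theorem eps_mul_eps [Fintype ι] [DecidableEq ι] (p : ι → ℤ) : eps p * eps p = 1 := by
  rw [eps, Matrix.diagonal_mul_diagonal, ← Matrix.diagonal_one]
  refine congrArg _ (funext fun i => ?_)
  rw [← C_mul, sg_mul_self, C_1]

theorem eps_mem [DecidableEq ι] (p : ι → ℤ) : eps p ∈ MM p p 0 := by
  intro i l
  rw [eps, Matrix.diagonal_apply]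
  split_ifs with h
  · subst h
    rw [zero_add, sub_self]
    exact isWeightedHomogeneous_C _ _
  · exact hga_zero _

theorem mul_eps [Fintype ι] [DecidableEq ι] [Fintype κ] [DecidableEq κ] {p : ι → ℤ} {q : κ → ℤ}
    {j : ℤ} {f : Matrix κ ι S6} (hf : f ∈ MM p q j) : f * eps p = sg j • (eps q * f) := by
  ext i l : 1
  rw [eps, eps, Matrix.mul_diagonal, Matrix.smul_apply, Matrix.diagonal_mul]
  by_cases h : 2 ∣ j + p l - q i
  · obtain ⟨k, hk⟩ := h
    have h1 : sg (p l) = sg j * sg (q i) := by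
      rw [show p l = 2 * (k - j) + (j + q i) by lia, sg_add, sg_two_mul, one_mul, sg_add]
    rw [h1, smul_eq_C_mul, C_mul]
    ring
  · rw [hga_odd_eq_zero (hf i l) h, zero_mul, mul_zero, smul_zero]

theorem d_mul_eps [Fintype ι] [DecidableEq ι] {p : ι → ℤ} {d : Matrix ι ι S6}
    (hd : d ∈ MM p p 3) : d * eps p = -(eps p * d) := by
  rw [mul_eps hd, sg_three, neg_one_smul]

/-! ### the ideals `(xᵢ ^ N : i ∈ L)` -/

/-- the ideal generated by the `xᵢ ^ N`, `i ∈ L` -/
def IL (N : ℕ) (L : List (Fin 6)) : Ideal S6 where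
  carrier := {f | ∀ m : Fin 6 →₀ ℕ, (∀ i ∈ L, m i < N) → coeff m f = 0}
  zero_mem' := fun _ _ => rfl
  add_mem' := fun h h' m hm => by rw [coeff_add, h m hm, h' m hm, add_zero]
  smul_mem' := fun c f h m hm => by
    classical
    rw [smul_eq_mul, coeff_mul]
    refine Finset.sum_eq_zero fun x hx => ?_
    have h2 : x.1 + x.2 = m := Finset.mem_antidiagonal.1 hx
    rw [h x.2 fun i hi => ?_, mul_zero]
    have h3 := hm i hi
    rw [← h2, Finsupp.add_apply] at h3
    lia

variable {N : ℕ} {L : List (Fin 6)}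

theorem IL_nil {f : S6} (h : f ∈ IL N []) : f = 0 := by
  ext m
  exact h m fun _ hi => absurd hi List.not_mem_nil

theorem IL_cons {f : S6} (i : Fin 6) (h : f ∈ IL N L) : f ∈ IL N (i :: L) := fun m hm =>
  h m fun k hk => hm k (List.mem_cons_of_mem _ hk)

theorem IL_pow (i : Fin 6) (f : S6) : X i ^ N * f ∈ IL N (i :: L) := by
  classical
  intro m hm
  rw [X_pow_eq_monomial, coeff_monomial_mul', if_neg]
  rw [Finsupp.single_le_iff]
  exact not_le.2 (hm i List.mem_cons_self)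

theorem IL_split {f : S6} {i : Fin 6} (h : f ∈ IL N (i :: L)) :
    ∃ g, f - X i ^ N * g ∈ IL N L := by
  refine ⟨f.divMonomial (Finsupp.single i N), fun m hm => ?_⟩
  have h1 := divMonomial_add_modMonomial f (Finsupp.single i N)
  rw [X_pow_eq_monomial, sub_eq_of_eq_add' h1.symm]
  by_cases h2 : Finsupp.single i N ≤ m
  · exact coeff_modMonomial_of_le _ h2
  · rw [coeff_modMonomial_of_not_le _ h2]
    refine h m fun k hk => ?_
    rcases List.mem_cons.1 hk with rfl | hk
    · rw [Finsupp.single_le_iff] at h2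
      exact not_le.1 h2
    · exact hm k hk

theorem IL_reg {f : S6} {i : Fin 6} (hi : i ∉ L) (h : X i ^ N * f ∈ IL N L) : f ∈ IL N L := by
  intro m hm
  have h1 := h (Finsupp.single i N + m) fun k hk => by
    rw [Finsupp.add_apply, Finsupp.single_eq_of_ne (fun h : k = i => hi (h ▸ hk)), zero_add]
    exact hm k hk
  rwa [X_pow_eq_monomial, coeff_monomial_mul, one_mul] at h1

/-- matrices with entries in `IL N L` -/
def IM (κ ι : Type) (N : ℕ) (L : List (Fin 6)) : Submodule S6 (Matrix κ ι S6) where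
  carrier := {A | ∀ i l, A i l ∈ IL N L}
  zero_mem' := fun _ _ => (IL N L).zero_mem
  add_mem' := fun h h' i l => (IL N L).add_mem (h i l) (h' i l)
  smul_mem' := fun c _ h i l => (IL N L).mul_mem_left c (h i l)

theorem IM_mul_left [Fintype κ] (g : Matrix μ κ S6) {A : Matrix κ ι S6} (h : A ∈ IM κ ι N L) :
    g * A ∈ IM μ ι N L := fun i l => by
  rw [Matrix.mul_apply]
  exact Ideal.sum_mem _ fun k _ => Ideal.mul_mem_left _ _ (h k l)

theorem IM_mul_right [Fintype κ] {A : Matrix μ κ S6} (h : A ∈ IM μ κ N L) (g : Matrix κ ι S6) :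
    A * g ∈ IM μ ι N L := fun i l => by
  rw [Matrix.mul_apply]
  exact Ideal.sum_mem _ fun k _ => Ideal.mul_mem_right _ _ (h i k)

theorem IM_nil {A : Matrix κ ι S6} (h : A ∈ IM κ ι N []) : A = 0 := by
  ext i l : 1
  exact IL_nil (h i l)

theorem IM_cons {A : Matrix κ ι S6} (i : Fin 6) (h : A ∈ IM κ ι N L) : A ∈ IM κ ι N (i :: L) :=
  fun a b => IL_cons i (h a b)

theorem IM_pow (i : Fin 6) (A : Matrix κ ι S6) : (X i ^ N : S6) • A ∈ IM κ ι N (i :: L) :=
  fun a b => IL_pow i (A a b)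

theorem IM_split {A : Matrix κ ι S6} {i : Fin 6} (h : A ∈ IM κ ι N (i :: L)) :
    ∃ B : Matrix κ ι S6, A - (X i ^ N : S6) • B ∈ IM κ ι N L := by
  choose g hg using fun a b => IL_split (h a b)
  exact ⟨Matrix.of g, hg⟩

theorem IM_reg {A : Matrix κ ι S6} {i : Fin 6} (hi : i ∉ L)
    (h : (X i ^ N : S6) • A ∈ IM κ ι N L) : A ∈ IM κ ι N L := fun a b => IL_reg hi (h a b)

/-! ### the residue -/

/-- the exponent `(r, …, r)` -/
noncomputable def cst (r : ℕ) : Fin 6 →₀ ℕ := Finsupp.equivFunOnFinite.symm fun _ => r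

theorem cst_apply (r : ℕ) (i : Fin 6) : cst r i = r := rfl

theorem degree_cst (r : ℕ) : (cst r).degree = 6 * r := by
  rw [Finsupp.degree_eq_sum]
  simp [cst_apply]

/-- the residue with respect to `x₀ ^ N, …, x₅ ^ N` -/
noncomputable def lam (N : ℕ) : S6 →ₗ[ℂ] ℂ := lcoeff ℂ (cst (N - 1))

theorem lam_IL (hN : 1 ≤ N) {f : S6} (h : f ∈ IL N L) : lam N f = 0 :=
  h _ fun i _ => by rw [cst_apply]; lia

theorem lam_trace_IM [Fintype ι] (hN : 1 ≤ N) {A : Matrix ι ι S6} (h : A ∈ IM ι ι N L) :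
    lam N A.trace = 0 :=
  lam_IL (L := L) hN (Ideal.sum_mem _ fun i _ => h i i)

/-- the residue pairing is nondegenerate modulo the ideal -/
theorem ndg [Fintype ι] [Fintype κ] {p : ι → ℤ} {q : κ → ℤ} {t t' : ℤ} (hN : 1 ≤ N)
    (ht : t + t' = 12 * N - 12) {A : Matrix κ ι S6} (hA : A ∈ MM p q t)
    (h : ∀ g ∈ MM q p t', lam N (g * A).trace = 0) : A ∈ IM κ ι N (List.finRange 6) := by
  classical
  intro i l m hm
  by_contra h0
  have h1 := hg_iff.1 (hA i l) m (mem_support_iff.2 h0)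
  have h2 : m ≤ cst (N - 1) := fun k => by
    have := hm k (List.mem_finRange k)
    rw [cst_apply]
    lia
  have h3 : cst (N - 1) - m + m = cst (N - 1) := tsub_add_cancel_of_le h2
  have h4 := congrArg Finsupp.degree h3
  rw [map_add, degree_cst] at h4
  have h5 := h (Matrix.single l i (monomial (cst (N - 1) - m) 1)) fun a b => by
    rw [Matrix.single_apply]
    split_ifs with h6
    · obtain ⟨rfl, rfl⟩ := h6
      exact hga_monomial _ (by lia)
    · exact hga_zero _
  rw [Matrix.trace_single_mul, smul_eq_mul, lam, lcoeff_apply] at h5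
  apply h0
  rw [← h5]
  nth_rw 1 [← h3]
  rw [coeff_monomial_mul, one_mul]

/-- matrices of small degree meet the ideal trivially -/
theorem eq_zero_of_IM {p : ι → ℤ} {q : κ → ℤ} {t : ℤ} (ht : ∀ i l, t + p l - q i < 2 * N)
    {A : Matrix κ ι S6} (hA : A ∈ MM p q t) (h : A ∈ IM κ ι N L) : A = 0 := by
  ext i l m
  by_contra h0
  have h1 := hg_iff.1 (hA i l) m (mem_support_iff.2 h0)
  refine h0 (h i l m fun k _ => ?_)
  have h2 := Finsupp.le_degree k m
  have h3 := ht i l
  lia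

end Vale.Agent.P287T.Cy
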