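import Vale.Agent.P287T.Cy.Sy1

/-!
# The symplectic form of an analytic family is analytic (P287 phase 2, block K3X)
-/

open MvPolynomial Module Filter Topology

namespace Vale.Agent.P287T.Cy

open Vale.Agent.P287Z.O Vale.Agent.P287Z.O.L Vale.Agent.P287Z.T Vale.Agent.P287T.Df

theorem hg_six {W : S6} (hW : W.IsHomogeneous 3) : V.Hg 6 W := by
  rw [hg_iff]
  intro m hm
  have h1 := hW (mem_support_iff.1 hm)
  have h2 : m.degree = 3 := by
    rw [Finsupp.degree_eq_weight_one]
    exact h1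
  rw [h2]
  norm_num

section an

variable {T : Type*} [NormedAddCommGroup T] [NormedSpace ℂ T] {t : T} {ι κ μ : Type}

/-- all coefficients are analytic -/
def AnP (f : T → S6) (t : T) : Prop := ∀ m, AnalyticAt ℂ (fun t => coeff m (f t)) t

theorem anP_const (f : S6) : AnP (fun _ => f) t := fun _ => analyticAt_const

theorem AnP.mul {f g : T → S6} (hf : AnP f t) (hg : AnP g t) : AnP (fun t => f t * g t) t := by
  classical
  intro m
  simp only [coeff_mul]
  exact Finset.analyticAt_fun_sum _ fun x _ => (hf x.1).mul (hg x.2)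

theorem anP_sum {α : Type*} (s : Finset α) {f : α → T → S6} (hf : ∀ a, AnP (f a) t) :
    AnP (fun t => ∑ a ∈ s, f a t) t := by
  intro m
  simp only [coeff_sum]
  exact Finset.analyticAt_fun_sum _ fun a _ => hf a m

theorem AnP.pderiv {f : T → S6} (hf : AnP f t) (j : Fin 6) : AnP (fun t => pderiv j (f t)) t := by
  intro m
  simp only [coeff_pderiv]
  exact (hf _).mul analyticAt_const

/-- all coefficients of all entries are analytic -/
def AnM (M : T → Matrix κ ι S6) (t : T) : Prop := ∀ i l, AnP (fun t => M t i l) t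

theorem anM_const (M : Matrix κ ι S6) : AnM (fun _ => M) t := fun _ _ => anP_const _

theorem anM_of [Finite ι] [Finite κ] {p : ι → ℤ} {q : κ → ℤ} {j : ℤ} {u : T → MM p q j}
    (hu : AnalyticAt ℂ u t) : AnM (fun y => (u y).1) t := fun i l m => analyticAt_MM.1 hu i l m

theorem AnM.mul [Fintype κ] {M : T → Matrix μ κ S6} {N : T → Matrix κ ι S6} (hM : AnM M t)
    (hN : AnM N t) : AnM (fun t => M t * N t) t := fun i l => by
  simp only [Matrix.mul_apply]
  exact anP_sum _ fun k => (hM i k).mul (hN k l)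

theorem AnM.der {W : S6} (J : Jd W) {M : T → Matrix κ ι S6} (hM : AnM M t) (i : Fin 6) :
    AnM (fun t => J.der i (M t)) t := fun a b => by
  simp only [Jd.der, Matrix.sum_apply, Matrix.smul_apply, Matrix.map_apply, smul_eq_mul]
  exact anP_sum _ fun j => (anP_const _).mul ((hM a b).pderiv j)

variable [Fintype ι] [DecidableEq ι] {W : S6} (J : Jd W)

theorem AnM.H {d : T → Matrix ι ι S6} (hd : AnM d t) (L : List (Fin 6)) :
    AnM (fun t => J.H (d t) L) t := by
  induction L with
  | nil => exact anM_const 1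
  | cons i L ih => exact (hd.der J i).mul ih

/-- the trace depends analytically on parameters -/
theorem AnM.tr (p : ι → ℤ) {d φ : T → Matrix ι ι S6} (hd : AnM d t) (hφ : AnM φ t) :
    AnalyticAt ℂ (fun t => J.tr p (d t) (φ t)) t := by
  simp only [Jd.tr_apply, Matrix.trace, Matrix.diag_apply, lam, lcoeff_apply]
  exact anP_sum _ (fun i => ((anM_const (eps p)).mul hφ).mul (hd.H J _) i i) _

variable [FiniteDimensional ℂ T] {p : ι → ℤ}

/-- the form `(v, w) ↦ tr (du v * du w)` of a family `u` -/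
noncomputable def Jd.omF (u : T → MM p p 3) (y : T) : T →L[ℂ] T →L[ℂ] ℂ :=
  toL2 (LinearMap.mk₂ ℂ (fun v w => J.tr p (u y).1 ((fderiv ℂ u y v).1 * (fderiv ℂ u y w).1))
    (fun _ _ _ => by rw [map_add, Submodule.coe_add, add_mul, map_add])
    (fun _ _ _ => by rw [map_smul, Submodule.coe_smul, smul_mul_assoc, map_smul])
    (fun _ _ _ => by rw [map_add, Submodule.coe_add, mul_add, map_add])
    (fun _ _ _ => by rw [map_smul, Submodule.coe_smul, mul_smul_comm, map_smul]))

theorem Jd.omF_apply (u : T → MM p p 3) (y v w : T) :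
    J.omF u y v w = J.tr p (u y).1 ((fderiv ℂ u y v).1 * (fderiv ℂ u y w).1) := rfl

theorem Jd.omF_an' {u : T → MM p p 3} (hu : AnalyticAt ℂ u t) (v w : T) :
    AnalyticAt ℂ (fun y => J.omF u y v w) t := by
  have h0 : ∀ v, AnalyticAt ℂ (fun y => fderiv ℂ u y v) t := fun v =>
    ((ContinuousLinearMap.apply ℂ (MM p p 3) v).analyticAt _).comp hu.fderiv
  have h1 : ∀ v, AnM (fun y => (fderiv ℂ u y v).1) t := fun v => anM_of (h0 v)
  simp only [Jd.omF_apply]
  exact AnM.tr J p (anM_of hu) ((h1 v).mul (h1 w))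

theorem Jd.omF_an {u : T → MM p p 3} (hu : AnalyticAt ℂ u t) : AnalyticAt ℂ (J.omF u) t := by
  refine (nm_analyticAt (A := T × T) (fun a => (ContinuousLinearMap.apply ℂ ℂ a.2).toLinearMap ∘ₗ
    (ContinuousLinearMap.apply ℂ (T →L[ℂ] ℂ) a.1).toLinearMap) fun s hs => ?_).2
    fun a => J.omF_an' hu a.1 a.2
  exact ContinuousLinearMap.ext fun v => ContinuousLinearMap.ext fun w => hs (v, w)

/-- the forms of two families agree along maps with pointwise equivalent values -/
theorem Jd.omF_compat [Fintype κ] [DecidableEq κ] {q : κ → ℤ} {T' F : Type*}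
    [NormedAddCommGroup T'] [NormedSpace ℂ T'] [FiniteDimensional ℂ T'] [NormedAddCommGroup F]
    [NormedSpace ℂ F] {u : T → MM p p 3} {u' : T' → MM q q 3} {y : F → T} {y' : F → T'} {x : F}
    {L : F →L[ℂ] T} {L' : F →L[ℂ] T'} (hu : DifferentiableAt ℂ u (y x))
    (hu' : DifferentiableAt ℂ u' (y' x)) (hy : HasFDerivAt y L x) (hy' : HasFDerivAt y' L' x)
    (h : ∀ᶠ s in 𝓝 x, IsMF W p (u (y s)).1 ∧ IsMF W q (u' (y' s)).1 ∧
      HE p (u (y s)).1 q (u' (y' s)).1 ∧ finrank ℂ (HH p (u (y s)).1 p (u (y s)).1 0) = 1)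
    (a b : F) : J.omF u' (y' x) (L' a) (L' b) = J.omF u (y x) (L a) (L b) :=
  J.om_compat (hu.hasFDerivAt.comp x hy) (hu'.hasFDerivAt.comp x hy') h a b

end an

end Vale.Agent.P287T.Cy
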