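import Vale.Agent.P287T.Cy.Sy2
import Vale.Agent.P287T.Kx.St

/-!
# The symplectic form on the cone over a surface of matrix factorizations (P287, block K3X)
-/

open MvPolynomial Module Filter Topology

namespace Vale.Agent.P287T.Cy

open Vale.Agent.P287Q Vale.Agent.P287Q.Cub Vale.Agent.P287T.Df Vale.Agent.P287T.Au
  Vale.Agent.P287T.Kx

variable {W : S6}

theorem orb_he {ι : Type} [Fintype ι] [DecidableEq ι] {p : ι → ℤ} {O : Set (Matrix ι ι S6)}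
    (h : Orb W p O) {d d' : Matrix ι ι S6} (a : d ∈ O) (b : d' ∈ O) :
    IsMF W p d ∧ IsMF W p d' ∧ HE p d p d' ∧ finrank ℂ (HH p d p d 0) = 1 := by
  obtain ⟨g, hg, g', hg', h1, h2, h3⟩ := (h.conj d a d').1 b
  exact ⟨h.mf d a, h.mf d' b, HE.of_conj hg hg' h1 h2 h3, h.dim d a 0⟩

variable (C : Cf W) (J : Jd W)

theorem cf_prm {z : Fin C.ν → ℂ} (hz : z ∈ C.Z) :
    ∃ ψ : (Fin (2 + Fintype.card Unit) → ℂ) → Fin C.ν → ℂ, Prm C.Z ψ 0 ∧ ψ 0 = z :=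
  (C.pv.mfd z hz).prm

/-- comparison of the forms of two local families at proportional points -/
theorem cf_compat {u u' : (Fin C.ν → ℂ) → MM C.p C.p 3} {z : Fin C.ν → ℂ} (hz : z ∈ C.Z) {c : ℂ}
    (hc : c ≠ 0) (hu : AnalyticAt ℂ u z) (hu' : AnalyticAt ℂ u' (c • z))
    (h : ∀ᶠ y in 𝓝[C.Z] z, (u y).1 ∈ C.O y) (h' : ∀ᶠ y in 𝓝[C.Z] (c • z), (u' y).1 ∈ C.O y)
    {v w : Fin C.ν → ℂ} (hv : v ∈ tn C.Z z) (hw : w ∈ tn C.Z z) :
    J.omF u' (c • z) (c • v) (c • w) = J.omF u z v w := by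
  obtain ⟨ψ, hψ, rfl⟩ := cf_prm C hz
  obtain ⟨a, rfl⟩ := hψ.mem_tn.1 hv
  obtain ⟨b, rfl⟩ := hψ.mem_tn.1 hw
  have h1 := hψ.an.differentiableAt.hasFDerivAt
  have h2 : Tendsto (fun s => c • ψ s) (𝓝 0) (𝓝[C.Z] (c • ψ 0)) :=
    tendsto_nhdsWithin_iff.2 ⟨hψ.an.continuousAt.const_smul c,
      hψ.mem.mono fun _ a => smul_mem C.pv.toMC a hc⟩
  refine J.omF_compat (W := W) (y := ψ) (y' := fun s => c • ψ s) hu.differentiableAt
    hu'.differentiableAt h1 (h1.const_smul c) ?_ a b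
  filter_upwards [hψ.mem, hψ.nh.le h, h2.eventually h'] with s a1 a2 a3
  rw [C.smul _ a1 c hc] at a3
  exact orb_he (C.orb _ a1) a2 a3

theorem cf_anti {u : (Fin C.ν → ℂ) → MM C.p C.p 3} {z : Fin C.ν → ℂ} (hz : z ∈ C.Z)
    (hu : AnalyticAt ℂ u z) (h : ∀ᶠ y in 𝓝[C.Z] z, (u y).1 ∈ C.O y) {v : Fin C.ν → ℂ}
    (hv : v ∈ tn C.Z z) :
    (u z).1 * (fderiv ℂ u z v).1 + (fderiv ℂ u z v).1 * (u z).1 = 0 := by
  obtain ⟨ψ, hψ, rfl⟩ := cf_prm C hz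
  obtain ⟨a, rfl⟩ := hψ.mem_tn.1 hv
  refine deriv_anti (W := W) (hu.differentiableAt.hasFDerivAt.comp 0
    hψ.an.differentiableAt.hasFDerivAt) ?_ a
  filter_upwards [hψ.mem, hψ.nh.le h] with s a1 a2
  exact (C.orb _ a1).mf _ a2

/-- the radial deformation is trivial -/
theorem cf_rad {u : (Fin C.ν → ℂ) → MM C.p C.p 3} {z : Fin C.ν → ℂ} (hz : z ∈ C.Z)
    (hu : AnalyticAt ℂ u z) (h : ∀ᶠ y in 𝓝[C.Z] z, (u y).1 ∈ C.O y) :
    Trv C.p (u z).1 (fderiv ℂ u z z).1 := by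
  have h0 : (u z).1 ∈ C.O z := h.self_of_nhdsWithin hz
  have h1 : HasFDerivAt (fun c : ℂ => c • z) (ContinuousLinearMap.toSpanSingleton ℂ z) 1 :=
    (ContinuousLinearMap.toSpanSingleton ℂ z).hasFDerivAt
  have h3 : ∀ᶠ c : ℂ in 𝓝 1, c ≠ 0 := eventually_ne_nhds one_ne_zero
  have h2 : Tendsto (fun c : ℂ => c • z) (𝓝 1) (𝓝[C.Z] z) :=
    tendsto_nhdsWithin_iff.2 ⟨by simpa using h1.continuousAt.tendsto,
      h3.mono fun c hc => smul_mem C.pv.toMC hz hc⟩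
  have h4 : HasFDerivAt u (fderiv ℂ u z) ((1 : ℂ) • z) := by
    rw [one_smul]
    exact hu.differentiableAt.hasFDerivAt
  obtain ⟨k, hk, e⟩ := deriv_ext (hasFDerivAt_const (u z) (1 : ℂ)) (h4.comp 1 h1) (j := 0) (f := 1)
    (by
      filter_upwards [h3, h2.eventually h] with c hc a
      rw [C.smul z hz c hc] at a
      obtain ⟨b1, b2, b3, -⟩ := orb_he (C.orb z hz) h0 a
      refine ⟨⟨W, b1, b2⟩, ?_⟩
      rw [Function.comp_apply, Function.comp_apply, one_smul, b3.hh_right])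
    (by rw [Function.comp_apply, one_smul]; exact zz_one _ _) 1
  refine ⟨-k, Submodule.neg_mem _ hk, ?_⟩
  simp only [ContinuousLinearMap.comp_apply, ContinuousLinearMap.toSpanSingleton_apply, one_smul,
    zero_apply, Submodule.coe_zero, mul_one, mul_zero, sub_zero,
    Function.comp_apply] at e
  rw [e, neg_mul, mul_neg, sub_neg_eq_add, neg_add_eq_sub]

theorem cf_nondeg {u : (Fin C.ν → ℂ) → MM C.p C.p 3} {z : Fin C.ν → ℂ} (hz : z ∈ C.Z)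
    (hu : AnalyticAt ℂ u z) (h : ∀ᶠ y in 𝓝[C.Z] z, (u y).1 ∈ C.O y)
    (hk : ∀ v ∈ tn C.Z z, Trv C.p (u z).1 (fderiv ℂ u z v).1 → ∃ c : ℂ, v = c • z)
    {v : Fin C.ν → ℂ} (hv : v ∈ tn C.Z z) (h0 : ∀ w ∈ tn C.Z z, J.omF u z w v = 0) :
    ∃ c : ℂ, v = c • z := by
  have h1 : (u z).1 ∈ C.O z := h.self_of_nhdsWithin hz
  have h2 : finrank ℂ ((ℂ ∙ z).comap (tn C.Z z).subtype) ≤ 1 := by
    rw [← Submodule.finrank_map_subtype_eq]
    exact (Submodule.finrank_mono (Submodule.map_comap_le _ _)).trans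
      (by simpa using finrank_span_le_card ({z} : Set (Fin C.ν → ℂ)))
  have h3 := J.om_nondeg ((C.orb z hz).mf _ h1) ((fderiv ℂ u z).toLinearMap ∘ₗ (tn C.Z z).subtype)
    (fun v => cf_anti C hz hu h v.2) ((ℂ ∙ z).comap (tn C.Z z).subtype)
    (fun v a => (hk v.1 v.2 a).elim fun c e => Submodule.mem_span_singleton.2 ⟨c, e.symm⟩)
    (by
      have a1 : finrank ℂ (HH C.p (u z).1 C.p (u z).1 3) = 2 := (C.orb z hz).dim _ h1 1
      rw [finrank_tn (C.pv.mfd z hz), a1, Fintype.card_unit]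
      lia)
    (v := ⟨v, hv⟩) fun w => h0 w.1 w.2
  exact (Submodule.mem_span_singleton.1 h3).imp fun _ e => e.symm

/-- the symplectic form of the surface, with its description by any local family -/
theorem cf_sym : ∃ σ, Sym C.Z σ ∧ (∀ z ∈ C.Z, ∀ v ∈ tn C.Z z, (∀ w ∈ tn C.Z z, σ z w v = 0) →
    ∃ c : ℂ, v = c • z) ∧ ∀ z ∈ C.Z, ∀ u : (Fin C.ν → ℂ) → MM C.p C.p 3, AnalyticAt ℂ u z →
    (∀ᶠ y in 𝓝[C.Z] z, (u y).1 ∈ C.O y) → ∀ v ∈ tn C.Z z, ∀ w ∈ tn C.Z z,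
      σ z v w = J.omF u z v w := by
  choose! u h1 h2 h3 using C.loc
  have k : ∀ z ∈ C.Z, ∀ u' : (Fin C.ν → ℂ) → MM C.p C.p 3, AnalyticAt ℂ u' z →
      (∀ᶠ y in 𝓝[C.Z] z, (u' y).1 ∈ C.O y) → ∀ v ∈ tn C.Z z, ∀ w ∈ tn C.Z z,
      J.omF (u z) z v w = J.omF u' z v w := fun z hz u' a b v hv w hw => by
    have := cf_compat C J hz one_ne_zero a (u' := u z) (by rw [one_smul]; exact h1 z hz) b
      (by rw [one_smul]; exact h2 z hz) hv hw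
    simpa only [one_smul] using this
  have nd : ∀ z ∈ C.Z, ∀ v ∈ tn C.Z z, (∀ w ∈ tn C.Z z, J.omF (u z) z w v = 0) →
      ∃ c : ℂ, v = c • z := fun z hz v hv => cf_nondeg C J hz (h1 z hz) (h2 z hz) (h3 z hz) hv
  have mf : ∀ z ∈ C.Z, IsMF W C.p (u z z).1 := fun z hz =>
    (C.orb z hz).mf _ ((h2 z hz).self_of_nhdsWithin hz)
  have s1 : ∀ z ∈ C.Z, ∀ᶠ y in 𝓝[C.Z] z, ∀ v ∈ tn C.Z y, ∀ w ∈ tn C.Z y,
      J.omF (u y) y v w = J.omF (u z) y v w := fun z hz => by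
    filter_upwards [self_mem_nhdsWithin, nhdsWithin_le_nhds (h1 z hz).eventually_analyticAt,
      eventually_eventually_nhdsWithin.2 (h2 z hz)] with y a b c
    exact k y a _ b c
  have s2 : ∀ z ∈ C.Z, ∀ v ∈ tn C.Z z, J.omF (u z) z v v = 0 := fun z hz v hv => by
    rw [Jd.omF_apply]
    exact J.om_self (mf z hz) (fderiv ℂ (u z) z v).2 (cf_anti C hz (h1 z hz) (h2 z hz) hv)
  have s3 : ∀ z ∈ C.Z, ∀ v ∈ tn C.Z z, J.omF (u z) z z v = 0 := fun z hz v hv => by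
    obtain ⟨h, -, e⟩ := cf_rad C hz (h1 z hz) (h2 z hz)
    rw [Jd.omF_apply, e]
    exact J.om_trv (mf z hz) h (cf_anti C hz (h1 z hz) (h2 z hz) hv)
  have s4 : ∀ z ∈ C.Z, ∃ v ∈ tn C.Z z, ∃ w ∈ tn C.Z z, J.omF (u z) z v w ≠ 0 := fun z hz => by
    by_contra! hn
    have a : tn C.Z z ≤ ℂ ∙ z := fun v hv => (nd z hz v hv fun w hw => hn w hw v hv).elim
      fun c e => Submodule.mem_span_singleton.2 ⟨c, e.symm⟩
    have b := (Submodule.finrank_mono a).trans (finrank_span_le_card ({z} : Set (Fin C.ν → ℂ)))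
    rw [finrank_tn (C.pv.mfd z hz)] at b
    simp at b
  exact ⟨fun z => J.omF (u z) z, ⟨fun z hz => ⟨J.omF (u z), J.omF_an (h1 z hz), s1 z hz⟩, s2, s3,
    s4, fun z hz c hc v hv w hw => cf_compat C J hz hc (h1 z hz) (h1 _ (smul_mem C.pv.toMC hz hc))
      (h2 z hz) (h2 _ (smul_mem C.pv.toMC hz hc)) hv hw⟩, nd, k⟩

/-- **SYM** -/
theorem stSym : StSym := fun _ hW hs C =>
  let ⟨J⟩ := nonempty_jd (hg_six hW) hs
  (cf_sym C J).imp fun _ h => h.1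

end Vale.Agent.P287T.Cy
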